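import Mathlib
import Vale.Agent.P116.H906.Nodes

/-!
# Flattening relative to a seed

`UpS K u t` is the open set where the lower value of `u` exceeds `t` (the value of `u` at a
component of `K` being its cluster interval). `SU K Z u` says that `UpS K u t ∪ Z` is connected
for all `t`. For `Z = wᶜ`, `w` a node, this is strong monotonicity (from above) in `w`; for
`Z` a component of `K` it is monotonicity relative to the pole `Z`.
-/

open Set Filter Topology Metric Bornology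

namespace Vale.Agent.P116.KF

open H906

/-- the open set where the lower value of `u` exceeds `t` -/
def UpS (K : Set ℂ) (u : ℂ → ℝ) (t : ℝ) : Set ℂ :=
  {z | z ∉ K ∧ t < u z} ∪ {z | z ∈ K ∧ ∃ n, ∃ t' > t, ∀ y ∈ nd K n z, y ∉ K → t' ≤ u y}

/-- strong monotonicity from above relative to the seed `Z` -/
def SU (K Z : Set ℂ) (u : ℂ → ℝ) : Prop := ∀ t, IsPreconnected (UpS K u t ∪ Z)

/-- `u` is strongly monotone in `w` -/
def SMon (K w : Set ℂ) (u : ℂ → ℝ) : Prop := SU K wᶜ u ∧ SU K wᶜ (fun z => - u z)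

/-- the part of `UpS K u t ∪ Z` connected to `Z` -/
def Rch (K Z : Set ℂ) (u : ℂ → ℝ) (t : ℝ) : Set ℂ :=
  {z | ∃ A : Set ℂ, IsPreconnected A ∧ z ∈ A ∧ (A ∩ Z).Nonempty ∧ A ⊆ UpS K u t ∪ Z}

open Classical in
/-- flattening of the islands of `{u > t}` which do not meet the seed `Z` -/
noncomputable def fl (K Z : Set ℂ) (u : ℂ → ℝ) : ℂ → ℝ := fun z =>
  if z ∈ Z then u z else sSup {t | z ∈ Rch K Z u t}

/-- flattening in both directions -/
noncomputable def flat (K Z Z' : Set ℂ) (u : ℂ → ℝ) : ℂ → ℝ := fun z =>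
  - fl K Z' (fun z => - fl K Z u z) z

/-- sets which are neighbourhoods of the components of `K` which they meet -/
def Reg (K A : Set ℂ) : Prop := ∀ z ∈ A, z ∈ K → ∃ n, nd K n z ⊆ A

/-- `m` is a lower bound of `u` off `Z` -/
def LB (K Z : Set ℂ) (u : ℂ → ℝ) (m : ℝ) : Prop := ∀ t < m, ∀ z, z ∈ UpS K u t ∪ Z

variable {K Z Z' w : Set ℂ} {u v : ℂ → ℝ}

/-! ### the sets `UpS` -/

lemma UpS.anti {s t : ℝ} (h : s ≤ t) : UpS K u t ⊆ UpS K u s := by
  rintro z (hz | ⟨hz, n, t', ht', hn⟩)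
  · exact Or.inl ⟨hz.1, h.trans_lt hz.2⟩
  · exact Or.inr ⟨hz, n, t', h.trans_lt ht', hn⟩

lemma UpS.mono (h : ∀ z, z ∉ K → u z ≤ v z) (t : ℝ) : UpS K u t ⊆ UpS K v t := by
  rintro z (hz | ⟨hz, n, t', ht', hn⟩)
  · exact Or.inl ⟨hz.1, hz.2.trans_le (h z hz.1)⟩
  · exact Or.inr ⟨hz, n, t', ht', fun y hy hyK => (hn y hy hyK).trans (h y hyK)⟩

lemma mem_UpS {t : ℝ} {z : ℂ} (hz : z ∉ K) : z ∈ UpS K u t ↔ t < u z := by
  constructor
  · rintro (h | h)
    · exact h.2
    · exact absurd h.1 hz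
  · exact fun h => Or.inl ⟨hz, h⟩

lemma nd_subset_UpS {t t' : ℝ} (ht : t < t') {n : ℕ} {z : ℂ}
    (h : ∀ y ∈ nd K n z, y ∉ K → t' ≤ u y) : nd K n z ⊆ UpS K u t := by
  intro y hy
  by_cases hyK : y ∈ K
  · refine Or.inr ⟨hyK, n, t', ht, fun x hx => ?_⟩
    rw [nd_eq hy] at hx
    exact h x hx
  · exact Or.inl ⟨hyK, ht.trans_le (h y hy hyK)⟩

lemma isOpen_UpS (hK : IsCompact K) (hu : ContinuousOn u Kᶜ) (t : ℝ) : IsOpen (UpS K u t) := by
  rw [isOpen_iff_mem_nhds]
  rintro z (hz | ⟨hz, n, t', ht', hn⟩)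
  · have h1 : Kᶜ ∈ 𝓝 z := hK.isClosed.isOpen_compl.mem_nhds hz.1
    have h2 : ContinuousAt u z := hu.continuousAt h1
    filter_upwards [h1, h2.eventually (lt_mem_nhds hz.2)] with y hy hy2
    exact Or.inl ⟨hy, hy2⟩
  · refine mem_of_superset (closedBall_mem_nhds z (lr_pos n)) ?_
    exact (closedBall_subset_nd hz (mem_nd hz n)).trans (nd_subset_UpS ht' hn)

lemma exists_nd_subset_of_fr (hK : IsCompact K) (hf : Full K) {A : Set ℂ}
    (hfr : Disjoint (frontier A) K) {z : ℂ} (hz : z ∈ K) (hzA : z ∈ A) :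
    ∃ n, nd K n z ⊆ interior A := by
  refine exists_nd_subset hK hf hz isOpen_interior ?_
  refine isPreconnected_connectedComponentIn.subset_of_closure_inter_subset isOpen_interior
    ⟨z, mem_connectedComponentIn hz, ?_⟩ ?_
  · by_contra h
    exact disjoint_left.1 hfr ⟨subset_closure hzA, h⟩ hz
  · rintro y ⟨hy, hyC⟩
    by_contra h
    exact disjoint_left.1 hfr ⟨closure_mono interior_subset hy, h⟩
      (connectedComponentIn_subset _ _ hyC)

lemma reg_of_fr (hK : IsCompact K) (hf : Full K) (h : Disjoint (frontier w) K) : Reg K w := by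
  intro z hz hzK
  obtain ⟨n, hn⟩ := exists_nd_subset_of_fr hK hf h hzK hz
  exact ⟨n, hn.trans interior_subset⟩

lemma reg_nd (n : ℕ) (x : ℂ) : Reg K (nd K n x) := fun _ hz _ => ⟨n, (nd_eq hz).subset⟩

lemma reg_off {A : Set ℂ} (h : A ⊆ Kᶜ) : Reg K A := fun _ hz hzK => absurd hzK (h hz)

lemma Reg.subset_UpS {A : Set ℂ} (hA : Reg K A) {m : ℝ} (hm : ∀ y ∈ A, y ∉ K → m ≤ u y) {t : ℝ}
    (ht : t < m) : A ⊆ UpS K u t := by
  intro z hz
  by_cases hzK : z ∈ K
  · obtain ⟨n, hn⟩ := hA z hz hzK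
    exact Or.inr ⟨hzK, n, m, ht, fun y hy hyK => hm y (hn hy) hyK⟩
  · exact Or.inl ⟨hzK, ht.trans_le (hm z hz hzK)⟩

/-- a node contains points off `K` -/
lemma exists_mem_nd_notMem (hK : IsCompact K) {x : ℂ} (hx : x ∈ K) (n : ℕ) :
    ∃ y ∈ nd K n x, y ∉ K := by
  have hc := isCompact_nd hK n x
  have hne : (frontier (nd K n x)).Nonempty := by
    rw [nonempty_frontier_iff]
    refine ⟨⟨x, mem_nd hx n⟩, fun h => ?_⟩
    rw [h] at hc
    exact noncompact_univ ℂ hc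
  obtain ⟨y, hy⟩ := hne
  refine ⟨y, ?_, disjoint_left.1 (frontier_nd_disjoint n x) hy⟩
  have := hy.1
  rwa [hc.isClosed.closure_eq] at this

lemma LB.of_compl (hK : IsCompact K) (hf : Full K) (hfr : Disjoint (frontier w) K) {m : ℝ}
    (hm : ∀ z ∈ w, z ∉ K → m ≤ u z) : LB K wᶜ u m := by
  intro t ht z
  by_cases hz : z ∈ w
  · exact Or.inl ((reg_of_fr hK hf hfr).subset_UpS hm ht hz)
  · exact Or.inr hz

lemma LB.of_univ {m : ℝ} (hm : ∀ z, z ∉ K → m ≤ u z) : LB K Z u m := by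
  intro t ht z
  have : Reg K univ := fun _ _ _ => ⟨0, subset_univ _⟩
  exact Or.inl (this.subset_UpS (fun y _ hy => hm y hy) ht (mem_univ z))

lemma LB.mono {m : ℝ} (h : LB K Z u m) (huv : ∀ z, z ∉ K → u z ≤ v z) : LB K Z v m :=
  fun t ht z => (h t ht z).imp (fun hz => UpS.mono huv t hz) id

/-! ### the sets `Rch` -/

lemma seed_subset_Rch (t : ℝ) : Z ⊆ Rch K Z u t := fun z hz =>
  ⟨{z}, isPreconnected_singleton, rfl, ⟨z, rfl, hz⟩, by
    rintro _ rfl
    exact Or.inr hz⟩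

lemma Rch_subset (t : ℝ) : Rch K Z u t ⊆ UpS K u t ∪ Z := by
  rintro z ⟨A, -, hz, -, hA⟩
  exact hA hz

lemma Rch.anti {s t : ℝ} (h : s ≤ t) : Rch K Z u t ⊆ Rch K Z u s := by
  rintro z ⟨A, h1, h2, h3, h4⟩
  exact ⟨A, h1, h2, h3, h4.trans (union_subset_union_left _ (UpS.anti h))⟩

lemma Rch.absorb {t : ℝ} {A : Set ℂ} (hA : IsPreconnected A) (hs : A ⊆ UpS K u t ∪ Z)
    (hne : (A ∩ Rch K Z u t).Nonempty) : A ⊆ Rch K Z u t := by
  obtain ⟨z, hzA, B, hB, hzB, hBw, hBs⟩ := hne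
  intro y hy
  refine ⟨A ∪ B, hA.union z hzA hzB hB, Or.inl hy, ?_, union_subset hs hBs⟩
  obtain ⟨x, hx, hxw⟩ := hBw
  exact ⟨x, Or.inr hx, hxw⟩

lemma isPreconnected_Rch (hZ : IsPreconnected Z) (hne : Z.Nonempty) (t : ℝ) :
    IsPreconnected (Rch K Z u t) := by
  obtain ⟨z₀, hz₀⟩ := hne
  refine isPreconnected_of_forall z₀ fun y hy => ?_
  have hy' := hy
  obtain ⟨A, hA, hyA, ⟨x, hxA, hxw⟩, hAs⟩ := hy
  refine ⟨A ∪ Z, ?_, Or.inr hz₀, Or.inl hyA, hA.union x hxA hxw hZ⟩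
  exact union_subset (Rch.absorb hA hAs ⟨y, hyA, hy'⟩) (seed_subset_Rch t)

/-! ### the first flattening -/

lemma fl_seed {z : ℂ} (hz : z ∈ Z) : fl K Z u z = u z := if_pos hz

lemma Rch_lt {t : ℝ} {z : ℂ} (hz : z ∈ Rch K Z u t) (hzw : z ∉ Z) (hzK : z ∉ K) : t < u z := by
  rcases Rch_subset t hz with h | h
  · exact (mem_UpS hzK).1 h
  · exact absurd h hzw

lemma mem_Rch_of_lt (hne : Z.Nonempty) {m : ℝ} (hm : LB K Z u m) {t : ℝ} (ht : t < m) (z : ℂ) :
    z ∈ Rch K Z u t := by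
  obtain ⟨z₀, hz₀⟩ := hne
  exact Rch.absorb (A := univ) isPreconnected_univ (fun y _ => hm t ht y)
    ⟨z₀, mem_univ _, seed_subset_Rch t hz₀⟩ (mem_univ z)

lemma fl_bdd {z : ℂ} (hzw : z ∉ Z) (hzK : z ∉ K) : BddAbove {t | z ∈ Rch K Z u t} :=
  ⟨u z, fun _ ht => (Rch_lt ht hzw hzK).le⟩

lemma fl_ne (hne : Z.Nonempty) {m : ℝ} (hm : LB K Z u m) (z : ℂ) :
    {t | z ∈ Rch K Z u t}.Nonempty :=
  ⟨m - 1, mem_Rch_of_lt hne hm (by linarith) z⟩

lemma fl_le (hne : Z.Nonempty) {m : ℝ} (hm : LB K Z u m) {z : ℂ} (hzK : z ∉ K) :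
    fl K Z u z ≤ u z := by
  by_cases hz : z ∈ Z
  · rw [fl_seed hz]
  · rw [fl, if_neg hz]
    exact csSup_le (fl_ne hne hm z) fun t ht => (Rch_lt ht hz hzK).le

lemma le_fl {t : ℝ} {z : ℂ} (hz : z ∈ Rch K Z u t) (hzw : z ∉ Z) (hzK : z ∉ K) :
    t ≤ fl K Z u z := by
  rw [fl, if_neg hzw]
  exact le_csSup (fl_bdd hzw hzK) hz

lemma mem_Rch_of_lt_fl (hne : Z.Nonempty) {m : ℝ} (hm : LB K Z u m) {t : ℝ} {z : ℂ}
    (ht : t < fl K Z u z) : z ∈ Rch K Z u t := by
  by_cases hz : z ∈ Z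
  · exact seed_subset_Rch t hz
  · rw [fl, if_neg hz] at ht
    obtain ⟨s, hs, hts⟩ := exists_lt_of_lt_csSup (fl_ne hne hm z) ht
    exact Rch.anti hts.le hs

/-- the range is not enlarged -/
lemma le_fl_of_le (hne : Z.Nonempty) {m : ℝ} (hm : LB K Z u m) {z : ℂ} (hz : z ∉ Z)
    (hzK : z ∉ K) : m ≤ fl K Z u z := by
  refine le_of_forall_lt fun t ht => ?_
  obtain ⟨s, hts, hsm⟩ := exists_between ht
  exact hts.trans_le (le_fl (mem_Rch_of_lt hne hm hsm z) hz hzK)

/-- the key inequality -/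
lemma fl_key (hne : Z.Nonempty) {m₀ : ℝ} (hm₀ : LB K Z u m₀) {A : Set ℂ} (hA : IsPreconnected A)
    {m : ℝ} (hm : ∀ t < m, A ⊆ UpS K u t) {x y : ℂ} (hx : x ∈ A) (hy : y ∈ A) (hyK : y ∉ K) :
    min (fl K Z u x) m ≤ fl K Z u y := by
  refine le_of_forall_lt fun t ht => ?_
  obtain ⟨s, hts, hs⟩ := exists_between ht
  have hs1 := (lt_min_iff.1 hs).1
  have hs2 := (lt_min_iff.1 hs).2
  refine hts.trans_le ?_
  by_cases hyw : y ∈ Z
  · rw [fl_seed hyw]
    exact ((mem_UpS hyK).1 (hm s hs2 hy)).le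
  · have h1 : A ⊆ Rch K Z u s := Rch.absorb hA ((hm s hs2).trans subset_union_left)
      ⟨x, hx, mem_Rch_of_lt_fl hne hm₀ hs1⟩
    exact le_fl (h1 hy) hyw hyK

lemma continuousOn_fl (hK : IsCompact K) (hne : Z.Nonempty) (hu : ContinuousOn u Kᶜ)
    {m : ℝ} (hm : LB K Z u m) : ContinuousOn (fl K Z u) Kᶜ := by
  intro x hx
  refine ContinuousAt.continuousWithinAt ?_
  have hKo : Kᶜ ∈ 𝓝 x := hK.isClosed.isOpen_compl.mem_nhds hx
  rw [Metric.continuousAt_iff]
  intro ε hε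
  have h2 : ContinuousAt u x := hu.continuousAt hKo
  obtain ⟨δ, hδ, hd⟩ := Metric.continuousAt_iff.1 h2 (ε / 4) (by positivity)
  obtain ⟨δ', hδ', hd'⟩ := Metric.mem_nhds_iff.1 hKo
  set r := min δ δ' with hr
  have hr0 : 0 < r := lt_min hδ hδ'
  refine ⟨r, hr0, fun {y} hy => ?_⟩
  have hsub : ∀ t < u x - ε / 4, ball x r ⊆ UpS K u t := by
    intro t ht z hz
    have hzK : z ∉ K := hd' (ball_subset_ball (min_le_right _ _) hz)
    rw [mem_UpS hzK]
    have h3 := hd (lt_of_lt_of_le (mem_ball.1 hz) (min_le_left _ _))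
    rw [Real.dist_eq, abs_lt] at h3
    linarith [h3.1]
  have hyb : y ∈ ball x r := hy
  have hyK : y ∉ K := hd' (ball_subset_ball (min_le_right _ _) hyb)
  have h3 := hd (lt_of_lt_of_le (mem_ball.1 hyb) (min_le_left _ _))
  rw [Real.dist_eq, abs_lt] at h3
  have hc := (convex_ball x r).isPreconnected
  have k1 := fl_key hne hm hc hsub (mem_ball_self hr0) hyb hyK
  have k2 := fl_key hne hm hc hsub hyb (mem_ball_self hr0) hx
  have l1 := fl_le hne hm (z := x) hx
  have l2 := fl_le hne hm hyK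
  rw [Real.dist_eq, abs_lt]
  constructor
  · rcases le_total (fl K Z u x) (u x - ε / 4) with hc' | hc'
    · rw [min_eq_left hc'] at k1
      linarith
    · rw [min_eq_right hc'] at k1
      linarith
  · rcases le_total (fl K Z u y) (u x - ε / 4) with hc' | hc'
    · rw [min_eq_left hc'] at k2
      linarith
    · rw [min_eq_right hc'] at k2
      linarith

/-- `UpS K (fl u) t ∪ Z` is connected -/
lemma fl_SU (hK : IsCompact K) (hZ : IsPreconnected Z) (hne : Z.Nonempty) {m : ℝ}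
    (hm : LB K Z u m) : SU K Z (fl K Z u) := by
  intro t
  obtain ⟨z₀, hz₀⟩ := id hne
  have hsub : ∀ t' > t, Rch K Z u t' ⊆ UpS K (fl K Z u) t ∪ Z := by
    intro t' ht' z hz
    by_cases hzw : z ∈ Z
    · exact Or.inr hzw
    · left
      by_cases hzK : z ∈ K
      · rcases Rch_subset t' hz with h1 | h1
        · rcases h1 with h1 | ⟨-, n, t'', ht'', hn⟩
          · exact absurd hzK h1.1
          · refine Or.inr ⟨hzK, n, t', ht', fun y hy hyK => ?_⟩
            have h2 : nd K n z ⊆ Rch K Z u t' := Rch.absorb (isPreconnected_nd n z)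
              ((nd_subset_UpS ht'' hn).trans subset_union_left) ⟨z, mem_nd hzK n, hz⟩
            by_cases hyw : y ∈ Z
            · rw [fl_seed hyw]
              exact ht''.le.trans (hn y hy hyK)
            · exact le_fl (h2 hy) hyw hyK
        · exact absurd h1 hzw
      · exact (mem_UpS hzK).2 (lt_of_lt_of_le ht' (le_fl hz hzw hzK))
  refine isPreconnected_of_forall z₀ fun z hz => ?_
  by_cases hzw : z ∈ Z
  · exact ⟨Z, subset_union_right, hz₀, hzw, hZ⟩
  obtain ⟨t', ht', hzR⟩ : ∃ t' > t, z ∈ Rch K Z u t' := by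
    rcases hz with hz | hz
    · rcases hz with ⟨hzK, hlt⟩ | ⟨hzK, n, t', ht', hn⟩
      · obtain ⟨s, hs1, hs2⟩ := exists_between hlt
        exact ⟨s, hs1, mem_Rch_of_lt_fl hne hm hs2⟩
      · obtain ⟨s, hs1, hs2⟩ := exists_between ht'
        refine ⟨s, hs1, ?_⟩
        have h1 : nd K n z ⊆ UpS K u s := nd_subset_UpS hs2 fun y hy hyK =>
          (hn y hy hyK).trans (fl_le hne hm hyK)
        obtain ⟨y, hy, hyK⟩ := exists_mem_nd_notMem hK hzK n
        exact Rch.absorb (isPreconnected_nd n z) (h1.trans subset_union_left)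
          ⟨y, hy, mem_Rch_of_lt_fl hne hm (hs2.trans_le (hn y hy hyK))⟩ (mem_nd hzK n)
    · exact absurd hz hzw
  exact ⟨Rch K Z u t', hsub t' ht', seed_subset_Rch _ hz₀, hzR, isPreconnected_Rch hZ hne t'⟩

/-- flattening from below preserves strong monotonicity from above -/
lemma SU_lower (hK : IsCompact K) (hf : Full K) (hu : ContinuousOn u Kᶜ)
    (hne : Z.Nonempty) (hS : SU K Z u) (hne' : (Z' \ K).Nonempty) {m : ℝ}
    (hm : LB K Z' (fun z => - u z) m) : SU K Z (fun z => - fl K Z' (fun z => - u z) z) := by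
  intro t
  have hZ'ne : Z'.Nonempty := hne'.mono sdiff_subset
  obtain ⟨z₀, hz₀⟩ := id hne
  set v : ℂ → ℝ := fun z => - fl K Z' (fun z => - u z) z with hv
  have huv : ∀ z, z ∉ K → u z ≤ v z := by
    intro z hz
    have := fl_le hZ'ne hm hz
    simp only [hv]
    linarith
  have hUV : UpS K u t ⊆ UpS K v t := UpS.mono huv t
  have hmain : ∀ y, y ∉ K → t < v y → ∃ B : Set ℂ, B ⊆ UpS K v t ∪ Z ∧ z₀ ∈ B ∧ y ∈ B ∧
      IsPreconnected B := by
    intro y hyK hty
    by_cases htu : t < u y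
    · exact ⟨UpS K u t ∪ Z, union_subset_union_left _ hUV, Or.inr hz₀,
        Or.inl ((mem_UpS hyK).2 htu), hS t⟩
    rw [not_lt] at htu
    obtain ⟨s, hts, hsv⟩ := exists_between hty
    have hyZ' : y ∉ Z' := by
      intro h
      have : v y = u y := by simp only [hv, fl_seed h]; ring
      linarith
    have hyR : y ∉ Rch K Z' (fun z => - u z) (-s) := by
      intro h
      have h1 := le_fl h hyZ' hyK
      simp only [hv] at hsv
      linarith
    set N := UpS K (fun z => - u z) (-s) with hN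
    have hNo : IsOpen N := isOpen_UpS hK hu.neg (-s)
    have hyN : y ∈ N := (mem_UpS hyK).2 (by linarith)
    set D := connectedComponentIn N y with hD
    have hDc : IsPreconnected D := isPreconnected_connectedComponentIn
    have hDo : IsOpen D := hNo.connectedComponentIn
    have hyD : y ∈ D := mem_connectedComponentIn hyN
    have hDN : D ⊆ N := connectedComponentIn_subset _ _
    have hDR : ∀ x ∈ D, x ∉ Rch K Z' (fun z => - u z) (-s) := by
      intro x hx hxR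
      exact hyR (Rch.absorb hDc (hDN.trans subset_union_left) ⟨x, hx, hxR⟩ hyD)
    have hvD : ∀ x ∈ D, x ∉ K → s ≤ v x := by
      intro x hx hxK
      have hxZ' : x ∉ Z' := fun h => hDR x hx (seed_subset_Rch _ h)
      have h1 : fl K Z' (fun z => - u z) x ≤ -s := by
        rw [fl, if_neg hxZ']
        refine csSup_le (fl_ne hZ'ne hm x) fun τ hτ => ?_
        by_contra hlt
        rw [not_le] at hlt
        exact hDR x hx (Rch.anti hlt.le hτ)
      simp only [hv]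
      linarith
    have hDV : D ⊆ UpS K v t := by
      intro x hx
      by_cases hxK : x ∈ K
      · rcases hDN hx with h1 | ⟨-, n, τ, hτ, hn⟩
        · exact absurd hxK h1.1
        · have h2 : nd K n x ⊆ D := by
            have h3 := (isPreconnected_nd n x).subset_connectedComponentIn (F := N)
              (mem_nd hxK n) (nd_subset_UpS hτ hn)
            rwa [← connectedComponentIn_eq hx] at h3
          exact Or.inr ⟨hxK, n, s, hts, fun z hz hzK => hvD z (h2 hz) hzK⟩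
      · exact (mem_UpS hxK).2 (hts.trans_le (hvD x hx hxK))
    obtain ⟨x, hxD, hxK⟩ : ∃ x ∈ frontier D, x ∉ K := by
      by_contra hcon
      push Not at hcon
      have hKc : IsPreconnected Kᶜ := hf.isPreconnected_compl hK.isBounded
      have h1 : Kᶜ ⊆ D := by
        refine hKc.subset_of_closure_inter_subset hDo ⟨y, hyK, hyD⟩ ?_
        rintro x ⟨hx, hxK⟩
        by_contra hxD
        exact hxK (hcon x ⟨hx, by rwa [hDo.interior_eq]⟩)
      obtain ⟨x, hxZ, hxK⟩ := hne'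
      exact hDR x (h1 hxK) (seed_subset_Rch _ hxZ)
    have hxN : x ∉ N := by
      intro h
      have h1 : IsOpen (connectedComponentIn N x) := hNo.connectedComponentIn
      obtain ⟨z, hz, hzD⟩ := mem_closure_iff.1 hxD.1 _ h1 (mem_connectedComponentIn h)
      have h2 : connectedComponentIn N x = D := by
        rw [connectedComponentIn_eq hz, hD, connectedComponentIn_eq hzD]
      have h3 : x ∈ D := h2 ▸ mem_connectedComponentIn h
      have h4 := hxD.2
      rw [hDo.interior_eq] at h4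
      exact h4 h3
    have hxu : t < u x := by
      rw [hN, mem_UpS hxK] at hxN
      linarith
    have hxU : UpS K u t ∈ 𝓝 x := (isOpen_UpS hK hu t).mem_nhds ((mem_UpS hxK).2 hxu)
    obtain ⟨ε, hε, hb⟩ := Metric.mem_nhds_iff.1 hxU
    obtain ⟨z, hzD, hz⟩ := Metric.mem_closure_iff.1 hxD.1 ε hε
    have hzb : z ∈ ball x ε := by rwa [mem_ball, dist_comm]
    refine ⟨D ∪ (ball x ε ∪ (UpS K u t ∪ Z)), ?_, Or.inr (Or.inr (Or.inr hz₀)), Or.inl hyD, ?_⟩
    · refine union_subset (hDV.trans subset_union_left) (union_subset ?_ ?_)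
      · exact (hb.trans hUV).trans subset_union_left
      · exact union_subset_union_left _ hUV
    · refine hDc.union z hzD (Or.inl hzb) ?_
      exact (convex_ball x ε).isPreconnected.union x (mem_ball_self hε)
        (Or.inl (hb (mem_ball_self hε))) (hS t)
  refine isPreconnected_of_forall z₀ fun z hz => ?_
  rcases hz with hz | hz
  · rcases hz with ⟨hzK, hlt⟩ | ⟨hzK, n, t', ht', hn⟩
    · exact hmain z hzK hlt
    · obtain ⟨y, hy, hyK⟩ := exists_mem_nd_notMem hK hzK n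
      obtain ⟨B, hB, h0, hyB, hBc⟩ := hmain y hyK (ht'.trans_le (hn y hy hyK))
      refine ⟨B ∪ nd K n z, union_subset hB ?_, Or.inl h0, Or.inr (mem_nd hzK n),
        hBc.union y hyB hy (isPreconnected_nd n z)⟩
      exact (nd_subset_UpS ht' hn).trans subset_union_left
  · exact ⟨UpS K u t ∪ Z, union_subset_union_left _ hUV, Or.inr hz₀, Or.inr hz, hS t⟩

/-! ### level sets at the ends -/

/-- for all but countably many levels, the ends on the level of `fl u` are on the level of `u` -/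
lemma fl_level (hK : IsCompact K) (hu : ContinuousOn u Kᶜ) :
    ∃ T : Set ℝ, T.Countable ∧ ∀ s ∉ T, ∀ z ∈ K,
      z ∉ UpS K (fl K Z u) s → z ∉ UpS K (fun z => - fl K Z u z) (-s) → z ∉ UpS K u s := by
  obtain ⟨S, hSc, hSd⟩ := TopologicalSpace.exists_countable_dense ℂ
  refine ⟨fl K Z u '' S, hSc.image _, fun s hs z hzK h1 h2 h3 => hs ?_⟩
  rcases h3 with h3 | ⟨-, n, t', ht', hn⟩
  · exact absurd hzK h3.1
  obtain ⟨q, hsq, hqt⟩ := exists_between ht'
  have hndq : nd K n z ⊆ UpS K u q := nd_subset_UpS hqt hn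
  have hzR : z ∉ Rch K Z u q := by
    intro hzR
    apply h1
    have h4 : nd K n z ⊆ Rch K Z u q := Rch.absorb (isPreconnected_nd n z)
      (hndq.trans subset_union_left) ⟨z, mem_nd hzK n, hzR⟩
    refine Or.inr ⟨hzK, n, q, hsq, fun y hy hyK => ?_⟩
    by_cases hyZ : y ∈ Z
    · rw [fl_seed hyZ]
      exact hqt.le.trans (hn y hy hyK)
    · exact le_fl (h4 hy) hyZ hyK
  set N := UpS K u q with hN
  have hNo : IsOpen N := isOpen_UpS hK hu q
  have hzN : z ∈ N := hndq (mem_nd hzK n)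
  set D := connectedComponentIn N z with hD
  have hDc : IsPreconnected D := isPreconnected_connectedComponentIn
  have hDo : IsOpen D := hNo.connectedComponentIn
  have hDN : D ⊆ N := connectedComponentIn_subset _ _
  have hndD : nd K n z ⊆ D :=
    (isPreconnected_nd n z).subset_connectedComponentIn (mem_nd hzK n) hndq
  have hDR : ∀ x ∈ D, x ∉ Rch K Z u q := by
    intro x hx hxR
    exact hzR (Rch.absorb hDc (hDN.trans subset_union_left) ⟨x, hx, hxR⟩
      (hndD (mem_nd hzK n)))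
  have hcon : ∀ x ∈ D, x ∉ K → ∀ y ∈ D, y ∉ K → fl K Z u x = fl K Z u y := by
    intro x hx _ y hy _
    have hxZ : x ∉ Z := fun h => hDR x hx (seed_subset_Rch _ h)
    have hyZ : y ∉ Z := fun h => hDR y hy (seed_subset_Rch _ h)
    rw [fl, fl, if_neg hxZ, if_neg hyZ]
    congr 1
    ext τ
    simp only [Set.mem_ofPred_eq]
    by_cases hτ : τ ≤ q
    · have h5 : D ⊆ UpS K u τ ∪ Z := (hDN.trans (UpS.anti hτ)).trans subset_union_left
      exact ⟨fun h => Rch.absorb hDc h5 ⟨x, hx, h⟩ hy, fun h => Rch.absorb hDc h5 ⟨y, hy, h⟩ hx⟩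
    · rw [not_le] at hτ
      exact ⟨fun h => absurd (Rch.anti hτ.le h) (hDR x hx),
        fun h => absurd (Rch.anti hτ.le h) (hDR y hy)⟩
  obtain ⟨x₀, hx₀, hx₀K⟩ := exists_mem_nd_notMem hK hzK n
  obtain ⟨d, hdS, hd⟩ : ∃ d ∈ S, d ∈ D ∩ Kᶜ := by
    obtain ⟨d, hd, hdS⟩ := hSd.inter_open_nonempty _ (hDo.inter hK.isClosed.isOpen_compl)
      ⟨x₀, hndD hx₀, hx₀K⟩
    exact ⟨d, hdS, hd⟩
  have hval : ∀ y ∈ nd K n z, y ∉ K → fl K Z u y = fl K Z u d := fun y hy hyK =>
    hcon y (hndD hy) hyK d hd.1 hd.2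
  refine ⟨d, hdS, ?_⟩
  apply le_antisymm
  · by_contra hlt
    rw [not_le] at hlt
    exact h1 (Or.inr ⟨hzK, n, _, hlt, fun y hy hyK => (hval y hy hyK).ge⟩)
  · by_contra hlt
    rw [not_le] at hlt
    exact h2 (Or.inr ⟨hzK, n, _, neg_lt_neg hlt, fun y hy hyK => by
      show - fl K Z u d ≤ - fl K Z u y
      rw [hval y hy hyK]⟩)

/-! ### both flattenings -/

section flat

variable {m M : ℝ}

lemma flat_eq (z : ℂ) : - flat K Z Z' u z = fl K Z' (fun z => - fl K Z u z) z := by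
  rw [flat, neg_neg]

lemma lb_fl_neg (hne : Z.Nonempty) (hm : LB K Z u m) (hM : LB K Z' (fun z => - u z) M) :
    LB K Z' (fun z => - fl K Z u z) M :=
  hM.mono fun _ hz => neg_le_neg (fl_le hne hm hz)

lemma fl_le_flat (hne : Z.Nonempty) (hne' : Z'.Nonempty) (hm : LB K Z u m)
    (hM : LB K Z' (fun z => - u z) M) {z : ℂ} (hz : z ∉ K) : fl K Z u z ≤ flat K Z Z' u z := by
  have := fl_le hne' (lb_fl_neg hne hm hM) hz
  rw [flat]
  linarith

/-- nothing changes on the common part of the seeds -/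
lemma flat_seed {z : ℂ} (hz : z ∈ Z) (hz' : z ∈ Z') : flat K Z Z' u z = u z := by
  rw [flat, fl_seed hz', fl_seed hz, neg_neg]

lemma continuousOn_flat (hK : IsCompact K) (hne : Z.Nonempty) (hne' : Z'.Nonempty)
    (hu : ContinuousOn u Kᶜ) (hm : LB K Z u m) (hM : LB K Z' (fun z => - u z) M) :
    ContinuousOn (flat K Z Z' u) Kᶜ :=
  (continuousOn_fl hK hne' (continuousOn_fl hK hne hu hm).neg (lb_fl_neg hne hm hM)).neg

theorem flat_SU (hK : IsCompact K) (hf : Full K) (hZ : IsPreconnected Z) (hne : Z.Nonempty)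
    (hne' : (Z' \ K).Nonempty) (hu : ContinuousOn u Kᶜ) (hm : LB K Z u m)
    (hM : LB K Z' (fun z => - u z) M) : SU K Z (flat K Z Z' u) :=
  SU_lower hK hf (continuousOn_fl hK hne hu hm) hne (fl_SU hK hZ hne hm) hne' (lb_fl_neg hne hm hM)

theorem flat_SU' (hK : IsCompact K) (hne : Z.Nonempty)
    (hZ' : IsPreconnected Z') (hne' : Z'.Nonempty) (hm : LB K Z u m)
    (hM : LB K Z' (fun z => - u z) M) : SU K Z' (fun z => - flat K Z Z' u z) := by
  have h := fl_SU hK hZ' hne' (lb_fl_neg hne hm hM)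
  have e : (fun z => - flat K Z Z' u z) = fl K Z' (fun z => - fl K Z u z) := by
    funext z
    exact flat_eq z
  rw [e]
  exact h

/-- the oscillation over connected sets does not increase -/
theorem flat_osc (hne : Z.Nonempty) (hne' : Z'.Nonempty) (hm : LB K Z u m)
    (hM : LB K Z' (fun z => - u z) M) {A : Set ℂ} (hA : IsPreconnected A) (hAr : Reg K A)
    {a b : ℝ} (ha : ∀ z ∈ A, z ∉ K → a ≤ u z) (hb : ∀ z ∈ A, z ∉ K → u z ≤ b) {x y : ℂ}
    (hx : x ∈ A) (hxK : x ∉ K) (hy : y ∈ A) (hyK : y ∉ K) :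
    flat K Z Z' u x - flat K Z Z' u y ≤ b - a := by
  have hM' := lb_fl_neg hne hm hM
  have hle : ∀ z, z ∉ K → fl K Z u z ≤ u z := fun z hz => fl_le hne hm hz
  have hge : ∀ z, z ∉ K → fl K Z u z ≤ flat K Z Z' u z := fun z hz =>
    fl_le_flat hne hne' hm hM hz
  have hab : a ≤ b := (ha x hx hxK).trans (hb x hx hxK)
  have hk1 : ∀ p ∈ A, ∀ q ∈ A, q ∉ K → min (fl K Z u p) a ≤ fl K Z u q := fun p hp q hq hqK =>
    fl_key hne hm hA (fun t ht => hAr.subset_UpS ha ht) hp hq hqK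
  by_cases hc : ∀ z ∈ A, z ∉ K → a ≤ fl K Z u z
  · -- second flattening with values in `[a, b]`
    have h1 : ∀ p ∈ A, ∀ q ∈ A, q ∉ K →
        min (fl K Z' (fun z => - fl K Z u z) p) (-b) ≤ fl K Z' (fun z => - fl K Z u z) q := by
      intro p hp q hq hqK
      refine fl_key hne' hM' hA (fun t ht => hAr.subset_UpS (fun z hz hzK => ?_) ht) hp hq hqK
      exact neg_le_neg ((hle z hzK).trans (hb z hz hzK))
    have h2 := h1 y hy x hx hxK
    rw [← flat_eq, ← flat_eq] at h2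
    have h3 := hc y hy hyK
    have h4 := hge y hyK
    rcases le_total (- flat K Z Z' u y) (-b) with h5 | h5
    · rw [min_eq_left h5] at h2
      linarith
    · rw [min_eq_right h5] at h2
      linarith
  · push Not at hc
    obtain ⟨p, hp, hpK, hpa⟩ := hc
    have hcst : ∀ z ∈ A, z ∉ K → fl K Z u z = fl K Z u p := by
      intro z hz hzK
      have h1 := hk1 z hz p hp hpK
      have h2 := hk1 p hp z hz hzK
      rw [min_eq_left hpa.le] at h2
      rcases le_total (fl K Z u z) a with h3 | h3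
      · rw [min_eq_left h3] at h1
        linarith
      · rw [min_eq_right h3] at h1
        linarith
    have h1 : ∀ r ∈ A, ∀ q ∈ A, q ∉ K →
        min (fl K Z' (fun z => - fl K Z u z) r) (- fl K Z u p) ≤
          fl K Z' (fun z => - fl K Z u z) q := by
      intro r hr q hq hqK
      refine fl_key hne' hM' hA (fun t ht => hAr.subset_UpS (fun z hz hzK => ?_) ht) hr hq hqK
      rw [hcst z hz hzK]
    have h2 := h1 y hy x hx hxK
    rw [← flat_eq, ← flat_eq] at h2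
    have h4 := hge y hyK
    rw [hcst y hy hyK] at h4
    rcases le_total (- flat K Z Z' u y) (- fl K Z u p) with h5 | h5
    · rw [min_eq_left h5] at h2
      linarith
    · rw [min_eq_right h5] at h2
      linarith

theorem abs_flat_sub_le (hne : Z.Nonempty) (hne' : Z'.Nonempty) (hm : LB K Z u m)
    (hM : LB K Z' (fun z => - u z) M) {A : Set ℂ} (hA : IsPreconnected A) (hAr : Reg K A)
    {a b : ℝ} (ha : ∀ z ∈ A, z ∉ K → a ≤ u z) (hb : ∀ z ∈ A, z ∉ K → u z ≤ b) {x y : ℂ}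
    (hx : x ∈ A) (hxK : x ∉ K) (hy : y ∈ A) (hyK : y ∉ K) :
    |flat K Z Z' u x - flat K Z Z' u y| ≤ b - a := by
  rw [abs_le]
  have h1 := flat_osc hne hne' hm hM hA hAr ha hb hx hxK hy hyK
  have h2 := flat_osc hne hne' hm hM hA hAr ha hb hy hyK hx hxK
  constructor <;> linarith

/-- the global bounds are kept -/
theorem flat_range (hne : Z.Nonempty) (hne' : Z'.Nonempty) {m M : ℝ} (hm : LB K Z u m)
    (hM : LB K Z' (fun z => - u z) (-M)) {z : ℂ} (hz : z ∉ Z) (hz' : z ∉ Z') (hzK : z ∉ K) :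
    m ≤ flat K Z Z' u z ∧ flat K Z Z' u z ≤ M := by
  have hM' := lb_fl_neg hne hm hM
  have h1 := le_fl_of_le hne hm hz hzK
  have h2 := fl_le hne' hM' hzK
  have h3 := le_fl_of_le hne' hM' hz' hzK
  rw [flat]
  constructor <;> linarith

/-- for all but countably many levels, the ends on the level of `flat u` are on the level
of `u` -/
theorem flat_level (hK : IsCompact K) (hne : Z.Nonempty) (hne' : Z'.Nonempty)
    (hu : ContinuousOn u Kᶜ) (hm : LB K Z u m) (hM : LB K Z' (fun z => - u z) M) :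
    ∃ T : Set ℝ, T.Countable ∧ ∀ s ∉ T, ∀ z ∈ K,
      z ∉ UpS K (flat K Z Z' u) s → z ∉ UpS K (fun z => - flat K Z Z' u z) (-s) →
      z ∉ UpS K u s ∧ z ∉ UpS K (fun z => - u z) (-s) := by
  obtain ⟨T1, hT1, h1⟩ := fl_level (Z := Z) hK hu
  obtain ⟨T2, hT2, h2⟩ := fl_level (Z := Z') hK (continuousOn_fl hK hne hu hm).neg
  refine ⟨T1 ∪ (fun x => -x) '' T2, hT1.union (hT2.image _), fun s hs z hz ha hb => ?_⟩
  rw [mem_union, not_or] at hs
  have e : (fun z => - flat K Z Z' u z) = fl K Z' (fun z => - fl K Z u z) := by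
    funext z
    exact flat_eq z
  rw [e] at hb
  have hs2 : -s ∉ T2 := fun h => hs.2 ⟨-s, h, by ring⟩
  have h3 : z ∉ UpS K (fun z => - fl K Z u z) (-s) := by
    refine h2 (-s) hs2 z hz hb ?_
    rw [neg_neg]
    exact ha
  have h4 : z ∉ UpS K (fl K Z u) s := fun h =>
    ha (UpS.mono (fun y hy => fl_le_flat hne hne' hm hM hy) _ h)
  have h5 := h1 s hs.1 z hz h4 h3
  refine ⟨h5, fun h => h3 ?_⟩
  exact UpS.mono (fun y hy => neg_le_neg (fl_le hne hm hy)) _ h

end flat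

/-! ### strong monotonicity in a node -/

/-- strong monotonicity only depends on the values in `w` -/
lemma SU.congr_compl (hK : IsCompact K) (hf : Full K) (hfr : Disjoint (frontier w) K)
    (huv : ∀ z ∈ w, z ∉ K → u z = v z) (h : SU K wᶜ u) : SU K wᶜ v := by
  intro t
  have key : ∀ {u v : ℂ → ℝ}, (∀ z ∈ w, z ∉ K → u z = v z) →
      UpS K u t ∪ wᶜ ⊆ UpS K v t ∪ wᶜ := by
    intro u v huv z hz
    by_cases hzw : z ∈ w
    swap
    · exact Or.inr hzw
    rcases hz with hz | hz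
    · left
      rcases hz with ⟨hzK, hlt⟩ | ⟨hzK, n, t', ht', hn⟩
      · exact Or.inl ⟨hzK, by rwa [← huv z hzw hzK]⟩
      · obtain ⟨n', hn'⟩ := reg_of_fr hK hf hfr z hzw hzK
        refine Or.inr ⟨hzK, max n n', t', ht', fun y hy hyK => ?_⟩
        rw [← huv y (hn' (nd_anti (le_max_right _ _) hy)) hyK]
        exact hn y (nd_anti (le_max_left _ _) hy) hyK
    · exact absurd hzw hz
  have e : UpS K v t ∪ wᶜ = UpS K u t ∪ wᶜ :=
    Subset.antisymm (key fun z hz hzK => (huv z hz hzK).symm) (key huv)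
  rw [e]
  exact h t

/-- strong monotonicity passes to smaller nodes -/
lemma SU.mono_compl {w' : Set ℂ} (hw : w' ⊆ w) (hc : IsPreconnected w'ᶜ) (hne : (wᶜ).Nonempty)
    (h : SU K wᶜ u) : SU K w'ᶜ u := by
  intro t
  obtain ⟨z, hz⟩ := hne
  have e : UpS K u t ∪ w'ᶜ = (UpS K u t ∪ wᶜ) ∪ w'ᶜ := by
    rw [union_assoc, union_eq_self_of_subset_left (compl_subset_compl.2 hw)]
  rw [e]
  exact (h t).union z (Or.inr hz) (compl_subset_compl.2 hw hz) hc

/-- `rho` is an upper gradient of `u` on segments in `G` -/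
def UGr (G : Set ℂ) (u rho : ℂ → ℝ) : Prop :=
  ∀ x y, segment ℝ x y ⊆ G → ∀ M, (∀ z ∈ segment ℝ x y, rho z ≤ M) → |u x - u y| ≤ M * ‖x - y‖

lemma isPreconnected_segment' (x y : ℂ) : IsPreconnected (segment ℝ x y) :=
  (convex_segment x y).isPreconnected

lemma norm_sub_le_of_mem_segment' {x y p q : ℂ} (hp : p ∈ segment ℝ x y)
    (hq : q ∈ segment ℝ x y) : ‖p - q‖ ≤ ‖x - y‖ := by
  obtain ⟨a, b, ha, hb, hab, rfl⟩ := hp
  obtain ⟨c, d, hc, hd, hcd, rfl⟩ := hq
  have e : a • x + b • y - (c • x + d • y) = (a - c) • (x - y) := by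
    have hb' : b = 1 - a := by linarith
    have hd' : d = 1 - c := by linarith
    rw [hb', hd']
    module
  rw [e, norm_smul, Real.norm_eq_abs]
  have : |a - c| ≤ 1 := by
    rw [abs_le]
    constructor <;> linarith
  calc |a - c| * ‖x - y‖ ≤ 1 * ‖x - y‖ := by gcongr
    _ = _ := one_mul _

/-- flattening keeps the upper gradient -/
lemma UGr.of_osc {u v rho : ℂ → ℝ} {G : Set ℂ} (hu : ContinuousOn u G) (h : UGr G u rho)
    (hosc : ∀ x y, segment ℝ x y ⊆ G → ∀ a b : ℝ,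
      (∀ z ∈ segment ℝ x y, a ≤ u z ∧ u z ≤ b) → |v x - v y| ≤ b - a) : UGr G v rho := by
  intro x y hxy M hM
  have hc : IsCompact (segment ℝ x y) := by
    rw [segment_eq_image_lineMap]
    exact isCompact_Icc.image AffineMap.lineMap_continuous
  have hne : (segment ℝ x y).Nonempty := ⟨x, left_mem_segment ℝ x y⟩
  obtain ⟨p, hp, hpm⟩ := hc.exists_isMinOn hne (hu.mono hxy)
  obtain ⟨q, hq, hqm⟩ := hc.exists_isMaxOn hne (hu.mono hxy)
  have h1 := hosc x y hxy (u p) (u q) fun z hz => ⟨hpm hz, hqm hz⟩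
  refine h1.trans ?_
  have hpq : segment ℝ q p ⊆ segment ℝ x y := (convex_segment x y).segment_subset hq hp
  have h2 := h q p (hpq.trans hxy) M fun z hz => hM z (hpq hz)
  have hM0 : 0 ≤ M * ‖x - y‖ := (abs_nonneg _).trans (h x y hxy M hM)
  by_cases hM' : 0 ≤ M
  · calc u q - u p ≤ |u q - u p| := le_abs_self _
      _ ≤ M * ‖q - p‖ := h2
      _ ≤ M * ‖x - y‖ := by
        gcongr
        exact norm_sub_le_of_mem_segment' hq hp
  · rw [not_le] at hM'
    have h3 : M * ‖q - p‖ ≤ 0 := mul_nonpos_of_nonpos_of_nonneg hM'.le (norm_nonneg _)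
    have h4 : u q - u p ≤ 0 := (le_abs_self _).trans (h2.trans h3)
    linarith

/-- **Flattening inside a node.** -/
theorem exists_flat (hK : IsCompact K) (hf : Full K) (hw : IsCompact w) (hwf : Full w)
    (hfr : Disjoint (frontier w) K) (hu : ContinuousOn u Kᶜ)
    (hb : ∃ B, ∀ z ∈ w, z ∉ K → |u z| ≤ B) :
    ∃ v : ℂ → ℝ, (∀ z, z ∉ w → v z = u z) ∧ (∀ z ∈ frontier w, v z = u z) ∧
      ContinuousOn v Kᶜ ∧ SMon K w v ∧
      (∀ A : Set ℂ, IsPreconnected A → Reg K A → ∀ a b : ℝ,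
        (∀ z ∈ A, z ∉ K → a ≤ u z ∧ u z ≤ b) →
        ∀ x ∈ A, x ∉ K → ∀ y ∈ A, y ∉ K → |v x - v y| ≤ b - a) ∧
      (∀ rho : ℂ → ℝ, UGr Kᶜ u rho → UGr Kᶜ v rho) ∧
      (∀ a b : ℝ, (∀ z ∈ w, z ∉ K → a ≤ u z ∧ u z ≤ b) → ∀ z ∈ w, z ∉ K → a ≤ v z ∧ v z ≤ b) ∧
      ∃ T : Set ℝ, T.Countable ∧ ∀ s ∉ T, ∀ z ∈ K,
        z ∉ UpS K v s → z ∉ UpS K (fun z => - v z) (-s) →
        z ∉ UpS K u s ∧ z ∉ UpS K (fun z => - u z) (-s) := by
  obtain ⟨B, hB⟩ := hb
  have hne : (wᶜ \ K).Nonempty := by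
    by_contra h
    have h1 : wᶜ ⊆ K := by
      intro z hz
      by_contra hzK
      exact h ⟨z, hz, hzK⟩
    have h2 : (univ : Set ℂ) ⊆ w ∪ K := fun z _ => by
      by_cases hz : z ∈ w
      · exact Or.inl hz
      · exact Or.inr (h1 hz)
    exact noncompact_univ ℂ ((hw.union hK).of_isClosed_subset isClosed_univ h2)
  have hne' : (wᶜ).Nonempty := hne.mono sdiff_subset
  have hpc : IsPreconnected wᶜ := hwf.isPreconnected_compl hw.isBounded
  have hm : LB K wᶜ u (-B) := LB.of_compl hK hf hfr fun z hz hzK => (abs_le.1 (hB z hz hzK)).1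
  have hM : LB K wᶜ (fun z => - u z) (-B) := LB.of_compl hK hf hfr fun z hz hzK =>
    neg_le_neg (abs_le.1 (hB z hz hzK)).2
  set v := flat K wᶜ wᶜ u with hv
  have hoff : ∀ z, z ∉ w → v z = u z := fun z hz => flat_seed hz hz
  have hvc : ContinuousOn v Kᶜ := continuousOn_flat hK hne' hne' hu hm hM
  have hosc : ∀ A : Set ℂ, IsPreconnected A → Reg K A → ∀ a b : ℝ,
      (∀ z ∈ A, z ∉ K → a ≤ u z ∧ u z ≤ b) →
      ∀ x ∈ A, x ∉ K → ∀ y ∈ A, y ∉ K → |v x - v y| ≤ b - a :=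
    fun A hA hAr a b hab x hx hxK y hy hyK => abs_flat_sub_le hne' hne' hm hM hA hAr
      (fun z hz hzK => (hab z hz hzK).1) (fun z hz hzK => (hab z hz hzK).2) hx hxK hy hyK
  refine ⟨v, hoff, ?_, hvc, ⟨flat_SU hK hf hpc hne' hne hu hm hM,
    flat_SU' hK hne' hpc hne' hm hM⟩, hosc, ?_, ?_, flat_level hK hne' hne' hu hm hM⟩
  · intro z hz
    have hzK : z ∉ K := disjoint_left.1 hfr hz
    have hKo : Kᶜ ∈ 𝓝 z := hK.isClosed.isOpen_compl.mem_nhds hzK
    have hcl : z ∈ closure wᶜ := by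
      rw [frontier_eq_closure_inter_closure] at hz
      exact hz.2
    have : (𝓝[wᶜ] z).NeBot := mem_closure_iff_nhdsWithin_neBot.1 hcl
    have h1 : Tendsto v (𝓝[wᶜ] z) (𝓝 (v z)) :=
      (hvc.continuousAt hKo).tendsto.mono_left nhdsWithin_le_nhds
    have h2 : Tendsto u (𝓝[wᶜ] z) (𝓝 (u z)) :=
      (hu.continuousAt hKo).tendsto.mono_left nhdsWithin_le_nhds
    have h3 : Tendsto v (𝓝[wᶜ] z) (𝓝 (u z)) :=
      h2.congr' (eventually_nhdsWithin_of_forall fun y hy => (hoff y hy).symm)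
    exact tendsto_nhds_unique h1 h3
  · intro rho h
    refine h.of_osc hu fun x y hxy a b hab => ?_
    exact hosc _ (isPreconnected_segment' x y) (reg_off hxy) a b (fun z hz _ => hab z hz) x
      (left_mem_segment ℝ x y) (hxy (left_mem_segment ℝ x y)) y (right_mem_segment ℝ x y)
      (hxy (right_mem_segment ℝ x y))
  · intro a b hab z hz hzK
    exact flat_range hne' hne' (LB.of_compl hK hf hfr fun z hz hzK => (hab z hz hzK).1)
      (LB.of_compl hK hf hfr fun z hz hzK => neg_le_neg (hab z hz hzK).2)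
      (fun h => h hz) (fun h => h hz) hzK

end Vale.Agent.P116.KF
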