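import Mathlib
import Vale.Agent.P116.KB.TopDef

/-!
# Full Koebe: the literal propositions of the blocks (master composition, 213 for 942)
-/

open Set Filter Topology Metric Bornology MeasureTheory
open scoped NNReal

namespace Vale.Agent.P116.KF

open H906 KB

/-- **[7]**, the adaptation lemma -/
def AD : Prop := ∀ {K : Set ℂ} (_ : IsCompact K) (_ : Full K) {n : ℕ} {x : ℂ} (_ : x ∈ K)
    {ι : Type} [Finite ι] {u : ι → ℂ → ℝ} (_ : ∀ i, ∃ ρ, Hon K (nd K n x) (u i) ρ)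
    (_ : ∀ i, SMon K (nd K n x) (u i))
    (_ : ∀ i j, i ≠ j → volume (Zs K (nd K n x) (u i) (u j)) = 0) {δ : ℝ} (_ : 0 < δ),
    ∃ S, G.NS K (nd K n x) S ∧ (∀ y ∈ K, y ∈ nd K n x → ∃ P ∈ S, y ∈ P) ∧
      ∀ i, ∑ᶠ P ∈ S, oscS K (u i) P ^ 2 ≤ Eo K (nd K n x) (u i) + δ

/-- **[45]**: compatibility of a strongly monotone function with limits of mixtures of Lipschitz
functions of the maps of structures which are adapted to it -/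
def P45 : Prop := ∀ {K : Set ℂ} (_ : IsCompact K) (_ : Full K) {n : ℕ} {x : ℂ} (_ : x ∈ K)
    {u ρ : ℂ → ℝ} (_ : Hon K (nd K n x) u ρ) (_ : SMon K (nd K n x) u)
    {g ρ' : ℂ → ℝ} (_ : Hon K (nd K n x) g ρ') {L : ℝ≥0} {N : ℕ → ℕ} {wt : ∀ j, Fin (N j) → ℝ}
    {S : ∀ j, Fin (N j) → Str} {h : ∀ j, Fin (N j) → ℂ → ℝ}
    (_ : ∀ j i, 0 ≤ wt j i) (_ : ∀ j, ∑ i, wt j i = 1) (_ : ∀ j i, LipschitzWith L (h j i))
    (_ : ∀ j i, G.NS K (lev K 0) (S j i).1) (_ : ∀ j i, K ⊆ ⋃₀ (S j i).1)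
    (_ : ∀ m, ∀ᶠ j in atTop, ∀ i, ∀ P ∈ (S j i).1, P ⊆ lev K m)
    (_ : ∀ δ > 0, ∀ᶠ j in atTop, ∀ i,
      ∑ᶠ P ∈ (S j i).1, oP K (nd K n x) u P ≤ Eo K (nd K n x) u + δ)
    (_ : TendstoLocallyUniformlyOn (fun j z => ∑ i, wt j i * h j i (kF fk (S j i) z)) g atTop Kᶜ),
    volume (Zs K (nd K n x) u g) = 0

/-- `v` is a flattening of `u` in `w` -/
structure FlatOf (K w : Set ℂ) (u v : ℂ → ℝ) : Prop where
  off : ∀ z ∉ w, v z = u z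
  fr : ∀ z ∈ frontier w, v z = u z
  osc : ∀ A ⊆ lev K 0, IsPreconnected A → Reg K A → oscS K v A ≤ oscS K u A
  oscC : ∀ c ∈ comps K, oscC K v c ≤ oscC K u c
  maj : ∀ ρ, UGr Kᶜ u ρ → UGr Kᶜ v ρ
  lev : ∃ T : Set ℝ, T.Countable ∧ ∀ s ∉ T, ∀ x ∈ K, s ∈ EI K v x → s ∈ EI K u x

/-- **[FL]** -/
def FlatP : Prop := ∀ {K : Set ℂ} (_ : IsCompact K) (_ : Full K) {n : ℕ} {x : ℂ} (_ : x ∈ K)
    {u ρ : ℂ → ℝ} (_ : Hon K (nd K n x) u ρ),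
    ∃ v, Hon K (nd K n x) v ρ ∧ SMon K (nd K n x) v ∧ FlatOf K (nd K n x) u v

/-- flattening preserves compatibility (`A` is the smaller one of two nested nodes) -/
def CmpFlatP : Prop := ∀ {K : Set ℂ} (_ : IsCompact K) (_ : Full K) {n : ℕ} {x : ℂ} (_ : x ∈ K)
    {w : Set ℂ} {u v ρ' : ℂ → ℝ} (_ : Hon K (nd K n x) u ρ') (_ : Hon K (nd K n x) v ρ')
    (_ : FlatOf K w u v) {g ρ : ℂ → ℝ} (_ : Hon K (nd K n x) g ρ)
    (_ : volume (Zs K (nd K n x) g u) = 0), volume (Zs K (nd K n x) g v) = 0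

/-- `v` is adapted to the structures of `𝔊` -/
def Adp (K w : Set ℂ) (𝔊 : Filter Str) (v : ℂ → ℝ) : Prop :=
  ∀ δ > 0, ∀ᶠ S : Str in 𝔊, ∑ᶠ P ∈ S.1, oP K w v P ≤ Eo K w v + δ

/-- averages of Lipschitz functions of the random map -/
def IsAvg {Ω : Type} [MeasurableSpace Ω] (K : Set ℂ) (P : Measure Ω) (gg : Ω → ℂ → ℂ)
    (f : ℂ → ℝ) : Prop :=
  ∃ (χ : ℂ → ℝ) (L : ℝ≥0) (p : Ω → ℂ), LipschitzWith L χ ∧ Measurable p ∧ IsBounded (range p) ∧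
    ∀ z ∉ K, f z = ∫ ω, χ (gg ω z - p ω) ∂P

/-- the law `P` is adapted to the flattenings of its averages -/
structure AdLaw (K : Set ℂ) {Ω : Type} [MeasurableSpace Ω] (P : Measure Ω) (gg : Ω → ℂ → ℂ)
    (𝔊 : Ω → Ultrafilter Str) : Prop where
  cov : ∀ ω, ∀ᶠ S : Str in (𝔊 ω : Filter Str), K ⊆ ⋃₀ S.1
  flat : ∀ n x, x ∈ K → ∀ f ρ, IsAvg K P gg f → Hon K (nd K n x) f ρ →
    ∃ v, Hon K (nd K n x) v ρ ∧ SMon K (nd K n x) v ∧ FlatOf K (nd K n x) f v ∧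
      ∀ ω, Adp K (nd K n x) (𝔊 ω : Filter Str) v
  flat2 : ∀ n x, x ∈ K → ∀ f ρ f' ρ', IsAvg K P gg f → Hon K (nd K n x) f ρ →
    IsAvg K P gg f' → Hon K (nd K n x) f' ρ' →
    ∃ v v', Hon K (nd K n x) v ρ ∧ SMon K (nd K n x) v ∧ FlatOf K (nd K n x) f v ∧
      Hon K (nd K n x) v' ρ' ∧ SMon K (nd K n x) v' ∧ FlatOf K (nd K n x) f' v' ∧
      volume (Zs K (nd K n x) v v') = 0

/-- **END'**: there is one state for which all the points are good -/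
def EndP : Prop := ∀ {K : Set ℂ} (_ : IsCompact K) (_ : Full K) (_ : K.Nonempty) {Par : Type}
    {B : Par → ℝ → Set (Set (Set ℂ))} {Ω : Type} [TopologicalSpace Ω] [MeasurableSpace Ω]
    {P : Measure Ω} {gg : Ω → ℂ → ℂ} {𝔊 : Ω → Ultrafilter Str} (_ : G.FSt K B Ω P gg 𝔊)
    (_ : AdLaw K P gg 𝔊), ∃ ω, ∀ x ∈ K, GoodAt fk K (𝔊 ω : Filter Str) x

/-- **END**: the random map is constant -/
def EndE : Prop := ∀ (_ : AD) {K : Set ℂ} (_ : IsCompact K) (_ : Full K) (_ : K.Nonempty) {Par : Type}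
    {B : Par → ℝ → Set (Set (Set ℂ))} {Ω : Type} [TopologicalSpace Ω] [MeasurableSpace Ω]
    {P : Measure Ω} {gg : Ω → ℂ → ℂ} {𝔊 : Ω → Ultrafilter Str} (_ : G.FSt K B Ω P gg 𝔊)
    (_ : AdLaw K P gg 𝔊), ∃ g₀ : ℂ → ℂ, ∀ᵐ ω ∂P, EqOn (gg ω) g₀ Kᶜ

end Vale.Agent.P116.KF
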