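import Vale.Agent.P116.KF.FL
import Vale.Agent.P116.Cl.E0Spec

/-!
# Flattening and majorants of the local Lipschitz constant (`Cl.Maj`)

`Maj G u ρ` and `UGr G u ρ` (upper gradient on segments) are equivalent for continuous `ρ ≥ 0`, and
both are kept by maps `v` which do not increase the oscillation over segments, in particular by
the flattening `exists_flat`.
-/

open Set Filter Topology Metric Bornology

namespace Vale.Agent.P116.KF

open H906 Cl

variable {G : Set ℂ} {u v ρ : ℂ → ℝ}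

/-- functions with a majorant are continuous -/
lemma maj_continuousAt (hu : Maj G u ρ) {a : ℂ} (ha : a ∈ G) : ContinuousAt u a := by
  obtain ⟨δ, hδ, h⟩ := hu.lip a ha 1 one_pos
  have hC : 0 < ρ a + 1 := by have := hu.nn a ha; linarith
  rw [Metric.continuousAt_iff]
  intro ε hε
  refine ⟨min δ (ε / (ρ a + 1)), lt_min hδ (by positivity), fun {x} hx => ?_⟩
  have h1 := h x (mem_ball.2 (lt_of_lt_of_le hx (min_le_left _ _))) a (mem_ball_self hδ)
  have h2 : ‖x - a‖ < ε / (ρ a + 1) := by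
    rw [← dist_eq_norm]
    exact lt_of_lt_of_le hx (min_le_right _ _)
  rw [Real.dist_eq]
  calc |u x - u a| ≤ (ρ a + 1) * ‖x - a‖ := h1
    _ < (ρ a + 1) * (ε / (ρ a + 1)) := by gcongr
    _ = ε := mul_div_cancel₀ _ hC.ne'

lemma maj_continuousOn (hu : Maj G u ρ) : ContinuousOn u G :=
  fun _ ha => (maj_continuousAt hu ha).continuousWithinAt

/-- majorants are kept if the oscillation over segments does not increase -/
theorem maj_of_osc (hG : IsOpen G) (hu : Maj G u ρ)
    (hosc : ∀ x y, segment ℝ x y ⊆ G → ∀ a b : ℝ,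
      (∀ z ∈ segment ℝ x y, a ≤ u z ∧ u z ≤ b) → |v x - v y| ≤ b - a) : Maj G v ρ where
  cont := hu.cont
  nn := hu.nn
  lip a ha ε hε := by
    obtain ⟨δ, hδ, h⟩ := hu.lip a ha ε hε
    obtain ⟨δ', hδ', h'⟩ := Metric.isOpen_iff.1 hG a ha
    refine ⟨min δ δ', lt_min hδ hδ', fun x hx y hy => ?_⟩
    have hseg : segment ℝ x y ⊆ ball a (min δ δ') := (convex_ball a _).segment_subset hx hy
    have hsG : segment ℝ x y ⊆ G := hseg.trans ((ball_subset_ball (min_le_right _ _)).trans h')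
    have hC : 0 ≤ ρ a + ε := by have := hu.nn a ha; linarith
    have hc : IsCompact (segment ℝ x y) := by
      rw [segment_eq_image_lineMap]
      exact isCompact_Icc.image AffineMap.lineMap_continuous
    have hne : (segment ℝ x y).Nonempty := ⟨x, left_mem_segment ℝ x y⟩
    have hcu : ContinuousOn u (segment ℝ x y) := (maj_continuousOn hu).mono hsG
    obtain ⟨p, hp, hpm⟩ := hc.exists_isMinOn hne hcu
    obtain ⟨q, hq, hqm⟩ := hc.exists_isMaxOn hne hcu
    have h1 := hosc x y hsG (u p) (u q) fun z hz => ⟨hpm hz, hqm hz⟩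
    have h2 := h q (ball_subset_ball (min_le_left _ _) (hseg hq)) p
      (ball_subset_ball (min_le_left _ _) (hseg hp))
    calc |v x - v y| ≤ u q - u p := h1
      _ ≤ |u q - u p| := le_abs_self _
      _ ≤ (ρ a + ε) * ‖q - p‖ := h2
      _ ≤ (ρ a + ε) * ‖x - y‖ := by
        gcongr
        exact norm_sub_le_of_mem_segment' hq hp

/-- a continuous nonnegative upper gradient on segments is a majorant -/
theorem ugr_maj (hG : IsOpen G) (h : UGr G u ρ) (hc : ContinuousOn ρ G)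
    (h0 : ∀ z ∈ G, 0 ≤ ρ z) : Maj G u ρ where
  cont := hc
  nn := h0
  lip a ha ε hε := by
    have h1 : ∀ᶠ z in 𝓝 a, ρ z < ρ a + ε :=
      (hc.continuousAt (hG.mem_nhds ha)).eventually (gt_mem_nhds (by linarith))
    obtain ⟨δ, hδ, h2⟩ := Metric.eventually_nhds_iff_ball.1 (h1.and (hG.mem_nhds ha))
    refine ⟨δ, hδ, fun x hx y hy => ?_⟩
    have hseg : segment ℝ x y ⊆ ball a δ := (convex_ball a _).segment_subset hx hy
    exact h x y (fun z hz => (h2 z (hseg hz)).2) _ fun z hz => (h2 z (hseg hz)).1.le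

/-- a majorant is an upper gradient on segments -/
theorem maj_ugr (hu : Maj G u ρ) : UGr G u ρ := by
  intro x y hxy M hM
  have hM0 : 0 ≤ M := (hu.nn x (hxy (left_mem_segment ℝ x y))).trans
    (hM x (left_mem_segment ℝ x y))
  refine le_of_forall_pos_le_add fun ε' hε' => ?_
  set ε : ℝ := ε' / (‖x - y‖ + 1) with hε
  have hn0 : 0 ≤ ‖x - y‖ := norm_nonneg _
  have hε0 : 0 < ε := by positivity
  set p : ℝ → ℂ := fun t => x + t • (y - x) with hp
  have hps : ∀ t ∈ Icc (0:ℝ) 1, p t ∈ segment ℝ x y := by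
    intro t ht
    rw [segment_eq_image']
    exact ⟨t, ht, rfl⟩
  have hpc : Continuous p := by
    simp only [hp]
    fun_prop
  have hpd : ∀ s t, ‖p s - p t‖ = |s - t| * ‖x - y‖ := by
    intro s t
    have e : p s - p t = (s - t) • (y - x) := by
      simp only [hp]
      module
    rw [e, norm_smul, Real.norm_eq_abs, norm_sub_rev y x]
  set C : ℝ := (M + ε) * ‖x - y‖ with hC
  have hfc : ContinuousOn (fun t => u (p t)) (Icc (0:ℝ) 1) :=
    (maj_continuousOn hu).comp hpc.continuousOn fun t ht => hxy (hps t ht)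
  set s : Set ℝ := {t | |u (p t) - u (p 0)| ≤ C * t} with hs
  have hcl : IsClosed (s ∩ Icc 0 1) := by
    have h1 : ContinuousOn (fun t => |u (p t) - u (p 0)| - C * t) (Icc (0:ℝ) 1) :=
      (hfc.sub continuousOn_const).abs.sub (continuousOn_const.mul continuousOn_id)
    have h2 := h1.preimage_isClosed_of_isClosed isClosed_Icc (isClosed_Iic (a := (0:ℝ)))
    convert h2 using 1
    ext t
    simp only [hs, mem_inter_iff, mem_ofPred_eq, mem_preimage, mem_Iic, sub_nonpos]
    exact and_comm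
  have key : Icc (0:ℝ) 1 ⊆ s := by
    refine hcl.Icc_subset_of_forall_exists_gt ?_ ?_
    · simp [hs]
    · rintro t ⟨ht, ht1⟩ r hr
      have hr' : t < r := hr
      have htI : t ∈ Icc (0:ℝ) 1 := ⟨ht1.1, ht1.2.le⟩
      obtain ⟨δ, hδ, h⟩ := hu.lip (p t) (hxy (hps t htI)) ε hε0
      have hδn : 0 < δ / (‖x - y‖ + 1) := by positivity
      have hlt : t < min (min r 1) (t + δ / (‖x - y‖ + 1)) :=
        lt_min (lt_min hr' ht1.2) (by linarith)
      obtain ⟨t', h1, h2⟩ := exists_between hlt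
      have h3 : t' < r := h2.trans_le ((min_le_left _ _).trans (min_le_left _ _))
      have h4 : t' < 1 := h2.trans_le ((min_le_left _ _).trans (min_le_right _ _))
      have h5 : t' < t + δ / (‖x - y‖ + 1) := h2.trans_le (min_le_right _ _)
      refine ⟨t', ?_, h1, h3.le⟩
      have h6 : ‖p t' - p t‖ = (t' - t) * ‖x - y‖ := by
        rw [hpd, abs_of_pos (sub_pos.2 h1)]
      have h7 : p t' ∈ ball (p t) δ := by
        rw [mem_ball, dist_eq_norm, h6]
        have h8 : t' - t < δ / (‖x - y‖ + 1) := by linarith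
        calc (t' - t) * ‖x - y‖ ≤ (t' - t) * (‖x - y‖ + 1) := by
              have : 0 ≤ t' - t := by linarith
              nlinarith
          _ < δ / (‖x - y‖ + 1) * (‖x - y‖ + 1) := by
              have : 0 < ‖x - y‖ + 1 := by linarith
              exact mul_lt_mul_of_pos_right h8 this
          _ = δ := div_mul_cancel₀ _ (by positivity)
      have h9 := h (p t') h7 (p t) (mem_ball_self hδ)
      have h10 : ρ (p t) ≤ M := hM _ (hps t htI)
      have h11 : |u (p t') - u (p t)| ≤ (M + ε) * ((t' - t) * ‖x - y‖) := by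
        refine h9.trans ?_
        rw [h6]
        have : 0 ≤ (t' - t) * ‖x - y‖ := mul_nonneg (by linarith) hn0
        exact mul_le_mul_of_nonneg_right (by linarith) this
      have ht' : |u (p t) - u (p 0)| ≤ C * t := ht
      change |u (p t') - u (p 0)| ≤ C * t'
      calc |u (p t') - u (p 0)| ≤ |u (p t') - u (p t)| + |u (p t) - u (p 0)| :=
            abs_sub_le _ _ _
        _ ≤ (M + ε) * ((t' - t) * ‖x - y‖) + C * t := add_le_add h11 ht'
        _ = C * t' := by rw [hC]; ring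
  have h1 : |u (p 1) - u (p 0)| ≤ C * 1 := key ⟨zero_le_one, le_rfl⟩
  have e1 : p 1 = y := by simp [hp]
  have e0 : p 0 = x := by simp [hp]
  rw [e1, e0, mul_one, abs_sub_comm] at h1
  have h2 : ε * ‖x - y‖ ≤ ε' := by
    rw [hε, div_mul_eq_mul_div, div_le_iff₀ (by positivity)]
    nlinarith
  calc |u x - u y| ≤ (M + ε) * ‖x - y‖ := h1
    _ = M * ‖x - y‖ + ε * ‖x - y‖ := by ring
    _ ≤ M * ‖x - y‖ + ε' := by linarith

theorem maj_iff_ugr (hG : IsOpen G) :
    Maj G u ρ ↔ UGr G u ρ ∧ ContinuousOn ρ G ∧ ∀ z ∈ G, 0 ≤ ρ z :=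
  ⟨fun h => ⟨maj_ugr h, h.cont, h.nn⟩, fun h => ugr_maj hG h.1 h.2.1 h.2.2⟩

/-- restriction to a smaller set -/
lemma maj_mono {G' : Set ℂ} (h : Maj G u ρ) (hG : G' ⊆ G) : Maj G' u ρ where
  cont := h.cont.mono hG
  nn z hz := h.nn z (hG hz)
  lip a ha := h.lip a (hG ha)

/-- functions which agree near each point of `G` -/
lemma maj_congr (h : Maj G u ρ) (huv : ∀ a ∈ G, ∀ᶠ z in 𝓝 a, v z = u z) : Maj G v ρ where
  cont := h.cont
  nn := h.nn
  lip a ha ε hε := by
    obtain ⟨δ, hδ, h1⟩ := h.lip a ha ε hε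
    obtain ⟨δ', hδ', h2⟩ := Metric.eventually_nhds_iff_ball.1 (huv a ha)
    refine ⟨min δ δ', lt_min hδ hδ', fun x hx y hy => ?_⟩
    rw [h2 x (ball_subset_ball (min_le_right _ _) hx), h2 y (ball_subset_ball (min_le_right _ _) hy)]
    exact h1 x (ball_subset_ball (min_le_left _ _) hx) y (ball_subset_ball (min_le_left _ _) hy)

/-- a larger continuous majorant -/
lemma maj_le {ρ' : ℂ → ℝ} (h : Maj G u ρ) (hc : ContinuousOn ρ' G) (hle : ∀ z ∈ G, ρ z ≤ ρ' z) :
    Maj G u ρ' where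
  cont := hc
  nn z hz := (h.nn z hz).trans (hle z hz)
  lip a ha ε hε := by
    obtain ⟨δ, hδ, h1⟩ := h.lip a ha ε hε
    refine ⟨δ, hδ, fun x hx y hy => (h1 x hx y hy).trans ?_⟩
    have := hle a ha
    exact mul_le_mul_of_nonneg_right (by linarith) (norm_nonneg _)

/-- the flattening in the form of the block E0: the majorant is kept -/
theorem maj_flat {K : Set ℂ} (hK : IsCompact K)
    (hosc : ∀ A : Set ℂ, IsPreconnected A → Reg K A → ∀ a b : ℝ,
      (∀ z ∈ A, z ∉ K → a ≤ u z ∧ u z ≤ b) →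
      ∀ x ∈ A, x ∉ K → ∀ y ∈ A, y ∉ K → |v x - v y| ≤ b - a) (h : Maj Kᶜ u ρ) : Maj Kᶜ v ρ := by
  refine maj_of_osc hK.isClosed.isOpen_compl h fun x y hxy a b hab => ?_
  exact hosc _ (isPreconnected_segment' x y) (reg_off hxy) a b (fun z hz _ => hab z hz) x
    (left_mem_segment ℝ x y) (hxy (left_mem_segment ℝ x y)) y (right_mem_segment ℝ x y)
    (hxy (right_mem_segment ℝ x y))

/-- **Flattening inside a node**, for a function with a majorant -/
theorem exists_flat_maj {K w : Set ℂ} (hK : IsCompact K) (hf : Full K) (hw : IsCompact w)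
    (hwf : Full w) (hfr : Disjoint (frontier w) K) (hu : Maj Kᶜ u ρ)
    (hb : ∃ B, ∀ z ∈ w, z ∉ K → |u z| ≤ B) :
    ∃ v : ℂ → ℝ, (∀ z, z ∉ w → v z = u z) ∧ (∀ z ∈ frontier w, v z = u z) ∧
      ContinuousOn v Kᶜ ∧ SMon K w v ∧
      (∀ A : Set ℂ, IsPreconnected A → Reg K A → ∀ a b : ℝ,
        (∀ z ∈ A, z ∉ K → a ≤ u z ∧ u z ≤ b) →
        ∀ x ∈ A, x ∉ K → ∀ y ∈ A, y ∉ K → |v x - v y| ≤ b - a) ∧
      (∀ ρ' : ℂ → ℝ, Maj Kᶜ u ρ' → Maj Kᶜ v ρ') ∧
      (∀ a b : ℝ, (∀ z ∈ w, z ∉ K → a ≤ u z ∧ u z ≤ b) → ∀ z ∈ w, z ∉ K → a ≤ v z ∧ v z ≤ b) ∧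
      ∃ T : Set ℝ, T.Countable ∧ ∀ s ∉ T, ∀ z ∈ K,
        z ∉ UpS K v s → z ∉ UpS K (fun z => - v z) (-s) →
        z ∉ UpS K u s ∧ z ∉ UpS K (fun z => - u z) (-s) := by
  obtain ⟨v, h1, h2, h3, h4, h5, -, h7, h8⟩ := exists_flat hK hf hw hwf hfr
    (maj_continuousOn hu) hb
  exact ⟨v, h1, h2, h3, h4, h5, fun ρ' h => maj_flat hK h5 h, h7, h8⟩

end Vale.Agent.P116.KF
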