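import Vale.Agent.P116.KB.HDef

/-!
# Flattening of honest functions, and basic facts on oscillations
-/

open Set Filter Topology Metric Bornology MeasureTheory

namespace Vale.Agent.P116.KB.Fl

open H906 KF

variable {K w A B : Set ℂ} {u v ρ : ℂ → ℝ}

/-! ### nodes -/

lemma nd_of_mem_cc {x y : ℂ} (hy : y ∈ connectedComponentIn K x) (n : ℕ) :
    nd K n y = nd K n x :=
  nd_eq (connectedComponentIn_mono x (subset_lev n) hy)

lemma biUnion_nd {x : ℂ} (hx : x ∈ K) (n : ℕ) :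
    ⋃ y ∈ connectedComponentIn K x, nd K n y = nd K n x := by
  apply Subset.antisymm
  · refine iUnion₂_subset fun y hy => ?_
    rw [nd_of_mem_cc hy]
  · exact subset_iUnion₂_of_subset x (mem_connectedComponentIn hx) Subset.rfl

/-! ### oscillation over a set -/

/-- `u` is bounded on `A` off `K` -/
def Bdd (K A : Set ℂ) (u : ℂ → ℝ) : Prop := ∃ B, ∀ z ∈ A, z ∉ K → |u z| ≤ B

lemma Bdd.mono (h : Bdd K B u) (hAB : A ⊆ B) : Bdd K A u := by
  obtain ⟨M, hM⟩ := h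
  exact ⟨M, fun z hz => hM z (hAB hz)⟩

lemma Bdd.above (h : Bdd K A u) : BddAbove (u '' (A \ K)) := by
  obtain ⟨M, hM⟩ := h
  refine ⟨M, ?_⟩
  rintro _ ⟨z, hz, rfl⟩
  exact (abs_le.1 (hM z hz.1 hz.2)).2

lemma Bdd.below (h : Bdd K A u) : BddBelow (u '' (A \ K)) := by
  obtain ⟨M, hM⟩ := h
  refine ⟨-M, ?_⟩
  rintro _ ⟨z, hz, rfl⟩
  exact (abs_le.1 (hM z hz.1 hz.2)).1

lemma le_oscS (h : Bdd K A u) {x y : ℂ} (hx : x ∈ A) (hxK : x ∉ K) (hy : y ∈ A) (hyK : y ∉ K) :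
    |u x - u y| ≤ oscS K u A := by
  have h1 := le_csSup h.above (mem_image_of_mem u ⟨hx, hxK⟩)
  have h2 := le_csSup h.above (mem_image_of_mem u ⟨hy, hyK⟩)
  have h3 := csInf_le h.below (mem_image_of_mem u ⟨hx, hxK⟩)
  have h4 := csInf_le h.below (mem_image_of_mem u ⟨hy, hyK⟩)
  rw [oscS, abs_le]
  constructor <;> linarith

lemma oscS_le {d : ℝ} (hd : 0 ≤ d)
    (h : ∀ x ∈ A, x ∉ K → ∀ y ∈ A, y ∉ K → |u x - u y| ≤ d) : oscS K u A ≤ d := by
  rcases (A \ K).eq_empty_or_nonempty with he | ⟨p, hp⟩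
  · rw [oscS, he, image_empty, Real.sSup_empty, Real.sInf_empty, sub_zero]
    exact hd
  have hne : (u '' (A \ K)).Nonempty := ⟨_, mem_image_of_mem u hp⟩
  have h1 : ∀ y ∈ A, y ∉ K → sSup (u '' (A \ K)) ≤ u y + d := by
    intro y hy hyK
    refine csSup_le hne ?_
    rintro _ ⟨x, hx, rfl⟩
    linarith [(abs_le.1 (h x hx.1 hx.2 y hy hyK)).2]
  have h2 : sSup (u '' (A \ K)) - d ≤ sInf (u '' (A \ K)) := by
    refine le_csInf hne ?_
    rintro _ ⟨y, hy, rfl⟩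
    linarith [h1 y hy.1 hy.2]
  rw [oscS]
  linarith

lemma oscS_nonneg (h : Bdd K A u) : 0 ≤ oscS K u A := by
  rcases (A \ K).eq_empty_or_nonempty with he | ⟨p, hp⟩
  · rw [oscS, he, image_empty, Real.sSup_empty, Real.sInf_empty, sub_zero]
  · have := le_oscS h hp.1 hp.2 hp.1 hp.2
    rwa [sub_self, abs_zero] at this

lemma oscS_mono (h : Bdd K B u) (hAB : A ⊆ B) : oscS K u A ≤ oscS K u B :=
  oscS_le (oscS_nonneg h) fun _ hx hxK _ hy hyK => le_oscS h (hAB hx) hxK (hAB hy) hyK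

lemma le_sSup_S (h : Bdd K A u) {x : ℂ} (hx : x ∈ A) (hxK : x ∉ K) :
    sInf (u '' (A \ K)) ≤ u x ∧ u x ≤ sSup (u '' (A \ K)) :=
  ⟨csInf_le h.below (mem_image_of_mem u ⟨hx, hxK⟩), le_csSup h.above (mem_image_of_mem u ⟨hx, hxK⟩)⟩

/-! ### oscillation at a component -/

lemma oscC_eq {x : ℂ} (hx : x ∈ K) :
    oscC K u (connectedComponentIn K x) = ⨅ n : ℕ, oscS K u (nd K n x) := by
  rw [oscC]
  congr 1
  funext n
  rw [biUnion_nd hx]

lemma Bdd.nd (h : Bdd K (lev K 0) u) (n : ℕ) (x : ℂ) : Bdd K (nd K n x) u :=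
  h.mono ((nd_subset n x).trans (lev_anti (Nat.zero_le n)))

lemma oscS_nd_anti (h : Bdd K (lev K 0) u) (x : ℂ) : Antitone fun n => oscS K u (nd K n x) :=
  fun _ _ hmn => oscS_mono (h.nd _ x) (nd_anti hmn)

lemma oscC_le (h : Bdd K (lev K 0) u) {x : ℂ} (hx : x ∈ K) (n : ℕ) :
    oscC K u (connectedComponentIn K x) ≤ oscS K u (nd K n x) := by
  rw [oscC_eq hx]
  refine ciInf_le ⟨0, ?_⟩ n
  rintro _ ⟨m, rfl⟩
  exact oscS_nonneg (h.nd m x)

lemma oscC_nonneg (h : Bdd K (lev K 0) u) {c : Set ℂ} (hc : c ∈ comps K) : 0 ≤ oscC K u c := by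
  obtain ⟨x, hx, rfl⟩ := hc
  rw [oscC_eq hx]
  exact le_ciInf fun m => oscS_nonneg (h.nd m x)

lemma le_oscC {x : ℂ} (hx : x ∈ K) {d : ℝ} (hd : ∀ n, d ≤ oscS K u (nd K n x)) :
    d ≤ oscC K u (connectedComponentIn K x) := by
  rw [oscC_eq hx]
  exact le_ciInf hd

lemma tendsto_oscS_nd (h : Bdd K (lev K 0) u) {x : ℂ} (hx : x ∈ K) :
    Tendsto (fun n => oscS K u (nd K n x)) atTop (𝓝 (oscC K u (connectedComponentIn K x))) := by
  rw [oscC_eq hx]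
  refine tendsto_atTop_ciInf (oscS_nd_anti h x) ⟨0, ?_⟩
  rintro _ ⟨m, rfl⟩
  exact oscS_nonneg (h.nd m x)

lemma oscS_nd_lt (h : Bdd K (lev K 0) u) {x : ℂ} (hx : x ∈ K) {ε : ℝ} (hε : 0 < ε) :
    ∃ n, ∀ m ≥ n, oscS K u (nd K m x) < oscC K u (connectedComponentIn K x) + ε :=
  eventually_atTop.1 ((tendsto_oscS_nd h hx).eventually (gt_mem_nhds (by linarith)))

/-! ### end intervals -/

lemma mem_EI {x : ℂ} (hx : x ∈ K) {s : ℝ} :
    s ∈ EI K u x ↔ ∀ n, ∀ ε > 0, (∃ y ∈ nd K n x, y ∉ K ∧ u y < s + ε) ∧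
      ∃ y ∈ nd K n x, y ∉ K ∧ s - ε < u y := by
  constructor
  · rintro ⟨h1, h2⟩ n ε hε
    constructor
    · by_contra hcon
      push Not at hcon
      exact h1 (Or.inr ⟨hx, n, s + ε, by linarith, hcon⟩)
    · by_contra hcon
      push Not at hcon
      exact h2 (Or.inr ⟨hx, n, -(s - ε), by linarith, fun y hy hyK => neg_le_neg (hcon y hy hyK)⟩)
  · intro h
    constructor
    · rintro (h1 | ⟨-, n, t', ht', hn⟩)
      · exact h1.1 hx
      · obtain ⟨⟨y, hy, hyK, hlt⟩, -⟩ := h n (t' - s) (by linarith)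
        linarith [hn y hy hyK]
    · rintro (h1 | ⟨-, n, t', ht', hn⟩)
      · exact h1.1 hx
      · obtain ⟨-, ⟨y, hy, hyK, hlt⟩⟩ := h n (t' + s) (by linarith)
        have := hn y hy hyK
        linarith

/-- two points of an end interval differ by at most the oscillation -/
lemma EI_sub_le (h : Bdd K (lev K 0) u) {x : ℂ} (hx : x ∈ K) {s s' : ℝ} (hs : s ∈ EI K u x)
    (hs' : s' ∈ EI K u x) : s - s' ≤ oscC K u (connectedComponentIn K x) := by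
  refine le_oscC hx fun n => ?_
  refine le_of_forall_pos_le_add fun ε hε => ?_
  obtain ⟨-, y, hy, hyK, h1⟩ := (mem_EI hx).1 hs n (ε / 2) (by positivity)
  obtain ⟨⟨y', hy', hyK', h2⟩, -⟩ := (mem_EI hx).1 hs' n (ε / 2) (by positivity)
  have h3 := (abs_le.1 (le_oscS (h.nd n x) hy hyK hy' hyK')).2
  linarith

/-! ### flattening of honest functions -/

lemma bdd_of_flat (hb : Bdd K (lev K 0) u) (hw : w ⊆ lev K 0)
    (hoff : ∀ z, z ∉ w → v z = u z)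
    (hr : ∀ a b : ℝ, (∀ z ∈ w, z ∉ K → a ≤ u z ∧ u z ≤ b) → ∀ z ∈ w, z ∉ K → a ≤ v z ∧ v z ≤ b) :
    Bdd K (lev K 0) v := by
  obtain ⟨M, hM⟩ := hb
  refine ⟨M, fun z hz hzK => ?_⟩
  by_cases hzw : z ∈ w
  · rw [abs_le]
    exact hr (-M) M (fun y hy hyK => abs_le.1 (hM y (hw hy) hyK)) z hzw hzK
  · rw [hoff z hzw]
    exact hM z hz hzK

lemma oscS_le_of_osc (hb : Bdd K A u) (hA : IsPreconnected A) (hAr : Reg K A)
    (hosc : ∀ A : Set ℂ, IsPreconnected A → Reg K A → ∀ a b : ℝ,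
        (∀ z ∈ A, z ∉ K → a ≤ u z ∧ u z ≤ b) →
        ∀ x ∈ A, x ∉ K → ∀ y ∈ A, y ∉ K → |v x - v y| ≤ b - a) : oscS K v A ≤ oscS K u A :=
  oscS_le (oscS_nonneg hb) fun x hx hxK y hy hyK =>
    hosc A hA hAr _ _ (fun _ hz hzK => le_sSup_S hb hz hzK) x hx hxK y hy hyK

lemma oscC_le_of_oscS (_hb : Bdd K (lev K 0) u) (hv : Bdd K (lev K 0) v)
    (h : ∀ n, ∀ x ∈ K, oscS K v (nd K n x) ≤ oscS K u (nd K n x)) {c : Set ℂ}
    (hc : c ∈ comps K) : oscC K v c ≤ oscC K u c := by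
  obtain ⟨x, hx, rfl⟩ := hc
  exact le_oscC hx fun n => (oscC_le hv hx n).trans (h n x hx)

lemma cc_subset_nd {n : ℕ} {x₀ x : ℂ} (hx : x ∈ nd K n x₀) :
    connectedComponentIn K x ⊆ nd K n x₀ := by
  rw [← nd_eq hx]
  exact connectedComponentIn_mono _ (subset_lev n)

/-- massive components are countable -/
lemma hon_countable (h : Hon K w u ρ) :
    {c : Set ℂ | c ∈ comps K ∧ c ⊆ w ∧ 0 < oscC K u c}.Countable := by
  classical
  have h1 := h.sum.countable_support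
  have h2 := h1.image (Subtype.val : comps K → Set ℂ)
  refine h2.mono ?_
  rintro c ⟨hc, hcw, hpos⟩
  refine ⟨⟨c, hc⟩, ?_, rfl⟩
  rw [Function.mem_support]
  rw [if_pos hcw]
  positivity

/-- compatibility is preserved when almost all levels at the ends are kept -/
lemma cmp_of_level {n : ℕ} {x₀ : ℂ} (hw : w = nd K n x₀) (h : Hon K w u ρ)
    (hv : Bdd K (lev K 0) v) {T : Set ℝ} (hT : T.Countable)
    (hlev : ∀ s ∉ T, ∀ z ∈ K, s ∈ EI K v z → s ∈ EI K u z) {p : Pair} (hc : Cmp K p (w, u)) :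
    Cmp K p (w, v) := by
  classical
  set T' : Set ℝ := ⋃ c ∈ {c : Set ℂ | c ∈ comps K ∧ c ⊆ w ∧ 0 < oscC K u c},
    {s | oscC K v c ≤ 0 ∧ ∃ x ∈ K, connectedComponentIn K x = c ∧ s ∈ EI K v x} with hT'
  have hT'c : T'.Countable := by
    refine (hon_countable h).biUnion fun c _ => ?_
    refine Set.Subsingleton.countable ?_
    rintro s ⟨h0, x, hx, rfl, hs⟩ s' ⟨-, x', hx', hxx', hs'⟩
    have hs'2 : s' ∈ EI K v x := by
      rw [mem_EI hx] 
      rw [mem_EI hx'] at hs'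
      intro m ε hε
      have hmem : x' ∈ connectedComponentIn K x := hxx' ▸ mem_connectedComponentIn hx'
      rw [← nd_of_mem_cc hmem m]
      exact hs' m ε hε
    have h1 := EI_sub_le hv hx hs hs'2
    have h2 := EI_sub_le hv hx hs'2 hs
    linarith
  have hsub : Zs K (p.1 ∩ w) p.2 v ⊆ Zs K (p.1 ∩ w) p.2 u ∪ Prod.snd ⁻¹' (T ∪ T') := by
    rintro ⟨s, s'⟩ ⟨x, hxK, hxA, hm, h1, h2⟩
    by_cases hs' : s' ∈ T ∪ T'
    · exact Or.inr hs'
    rw [mem_union, not_or] at hs'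
    refine Or.inl ⟨x, hxK, hxA, ?_, h1, hlev s' hs'.1 x hxK h2⟩
    rintro ⟨hp, hu⟩
    apply hs'.2
    rw [hT', mem_iUnion₂]
    refine ⟨connectedComponentIn K x, ⟨⟨x, hxK, rfl⟩, ?_, hu⟩, ?_, x, hxK, rfl, h2⟩
    · have := hxA.2
      rw [hw] at this ⊢
      exact cc_subset_nd this
    · by_contra hpos
      rw [not_le] at hpos
      exact hm ⟨hp, hpos⟩
  have hnull : volume (Prod.snd ⁻¹' (T ∪ T') : Set (ℝ × ℝ)) = 0 :=
    Measure.quasiMeasurePreserving_snd.preimage_null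
      ((hT.union hT'c).measure_zero volume)
  refine measure_mono_null hsub (measure_union_null hc hnull)

/-- **Flattening of honest functions.** -/
theorem flat_hon (hK : IsCompact K) (hf : Full K) {n : ℕ} {x₀ : ℂ} (hx₀ : x₀ ∈ K)
    (hw : w = nd K n x₀) (hwf : Full w) (h : Hon K w u ρ) :
    ∃ v : ℂ → ℝ, Hon K w v ρ ∧ AdmP K (w, v) ∧ (∀ z, z ∉ w → v z = u z) ∧
      (∀ z ∈ frontier w, v z = u z) ∧
      (∀ A : Set ℂ, IsPreconnected A → Reg K A → A ⊆ lev K 0 → oscS K v A ≤ oscS K u A) ∧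
      (∀ A : Set ℂ, IsPreconnected A → Reg K A → ∀ a b : ℝ,
        (∀ z ∈ A, z ∉ K → a ≤ u z ∧ u z ≤ b) →
        ∀ x ∈ A, x ∉ K → ∀ y ∈ A, y ∉ K → |v x - v y| ≤ b - a) ∧
      (∀ c ∈ comps K, oscC K v c ≤ oscC K u c) ∧
      (∀ p : Pair, Cmp K p (w, u) → Cmp K p (w, v)) := by
  classical
  have hw0 : w ⊆ lev K 0 := by
    rw [hw]
    exact (nd_subset n x₀).trans (lev_anti (Nat.zero_le n))
  obtain ⟨v, hoff, hfr, hvc, hSM, hosc, hUG, hr, T, hT, hlev⟩ := exists_flat hK hf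
    (by rw [hw]; exact isCompact_nd hK n x₀) hwf (by rw [hw]; exact frontier_nd_disjoint n x₀)
    h.cont (h.bdd.imp fun B hB z hz => hB z (hw0 hz))
  have hvb : Bdd K (lev K 0) v := bdd_of_flat h.bdd hw0 hoff hr
  have hoscS : ∀ A : Set ℂ, IsPreconnected A → Reg K A → A ⊆ lev K 0 →
      oscS K v A ≤ oscS K u A := fun A hA hAr hA0 =>
    oscS_le_of_osc (Bdd.mono h.bdd hA0) hA hAr hosc
  have hoscC : ∀ c ∈ comps K, oscC K v c ≤ oscC K u c := fun c hc =>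
    oscC_le_of_oscS h.bdd hvb (fun m x _ => hoscS _ (isPreconnected_nd m x) (reg_nd m x)
      ((nd_subset m x).trans (lev_anti (Nat.zero_le m)))) hc
  have hHv : Hon K w v ρ := by
    refine ⟨hvc, hvb, h.rc, h.rnn, hUG ρ h.maj, h.en, ?_⟩
    refine Summable.of_nonneg_of_le (fun c => ?_) (fun c => ?_) h.sum
    · split_ifs
      · positivity
      · exact le_rfl
    · split_ifs
      · exact pow_le_pow_left₀ (oscC_nonneg hvb c.2) (hoscC c c.2) 2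
      · exact le_rfl
  exact ⟨v, hHv, ⟨⟨n, x₀, hx₀, hw⟩, ⟨ρ, hHv⟩, hSM⟩, hoff, hfr, hoscS, hosc, hoscC,
    fun p hp => cmp_of_level hw h hvb hT (fun s hs z hz hzs => hlev s hs z hz hzs.1 hzs.2) hp⟩

end Vale.Agent.P116.KB.Fl
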