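import Vale.Agent.P116.KF.Spec
import Vale.Agent.P116.KF.FlatHon

/-!
# The blocks `FlatP` and `CmpFlatP` of `KF/Spec.lean`
-/

open Set Filter Topology Metric Bornology MeasureTheory

namespace Vale.Agent.P116.KF

open H906 KB

/-- **[FL]** -/
theorem flatP : FlatP := by
  intro K hK hf n x hx u ρ h
  have hw0 : nd K n x ⊆ lev K 0 := (nd_subset n x).trans (lev_anti (Nat.zero_le n))
  obtain ⟨v, hoff, hfr, hvc, hSM, hosc, hUG, hr, T, hT, hlev⟩ := exists_flat hK hf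
    (isCompact_nd hK n x) (PBC.full_nd hK n x) (frontier_nd_disjoint n x)
    h.cont (h.bdd.imp fun B hB z hz => hB z (hw0 hz))
  have hvb : Fl.Bdd K (lev K 0) v := Fl.bdd_of_flat h.bdd hw0 hoff hr
  have hoscS : ∀ A ⊆ lev K 0, IsPreconnected A → Reg K A →
      oscS K v A ≤ oscS K u A := fun A hA0 hA hAr =>
    Fl.oscS_le_of_osc (Fl.Bdd.mono h.bdd hA0) hA hAr hosc
  have hoscC : ∀ c ∈ comps K, oscC K v c ≤ oscC K u c := fun c hc =>
    Fl.oscC_le_of_oscS h.bdd hvb (fun m x _ => hoscS _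
      ((nd_subset m x).trans (lev_anti (Nat.zero_le m))) (isPreconnected_nd m x) (reg_nd m x)) hc
  refine ⟨v, ⟨hvc, hvb, h.rc, h.rnn, hUG ρ h.maj, h.en, ?_⟩, hSM,
    ⟨hoff, hfr, hoscS, hoscC, hUG, T, hT, fun s hs z hz hzs => hlev s hs z hz hzs.1 hzs.2⟩⟩
  refine Summable.of_nonneg_of_le (fun c => ?_) (fun c => ?_) h.sum
  · split_ifs
    · positivity
    · exact le_rfl
  · split_ifs
    · exact pow_le_pow_left₀ (Fl.oscC_nonneg hvb c.2) (hoscC c c.2) 2
    · exact le_rfl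

/-- flattening preserves compatibility -/
theorem cmpFlatP : CmpFlatP := by
  intro K _ _ n x _ w u v ρ' hu hv hfl g ρ _ h0
  classical
  obtain ⟨T, hT, hlev⟩ := hfl.lev
  set A := nd K n x with hA
  set T' : Set ℝ := ⋃ c ∈ {c : Set ℂ | c ∈ comps K ∧ c ⊆ A ∧ 0 < oscC K u c},
    {s | oscC K v c ≤ 0 ∧ ∃ x ∈ K, connectedComponentIn K x = c ∧ s ∈ EI K v x} with hT'
  have hT'c : T'.Countable := by
    refine (Fl.hon_countable hu).biUnion fun c _ => ?_
    refine Set.Subsingleton.countable ?_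
    rintro s ⟨h0, x, hx, rfl, hs⟩ s' ⟨-, x', hx', hxx', hs'⟩
    have hs'2 : s' ∈ EI K v x := by
      rw [Fl.mem_EI hx]
      rw [Fl.mem_EI hx'] at hs'
      intro m ε hε
      have hmem : x' ∈ connectedComponentIn K x := hxx' ▸ mem_connectedComponentIn hx'
      rw [← Fl.nd_of_mem_cc hmem m]
      exact hs' m ε hε
    have h1 := Fl.EI_sub_le hv.bdd hx hs hs'2
    have h2 := Fl.EI_sub_le hv.bdd hx hs'2 hs
    linarith
  have hsub : Zs K A g v ⊆ Zs K A g u ∪ Prod.snd ⁻¹' (T ∪ T') := by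
    rintro ⟨s, s'⟩ ⟨x, hxK, hxA, hm, h1, h2⟩
    by_cases hs' : s' ∈ T ∪ T'
    · exact Or.inr hs'
    rw [mem_union, not_or] at hs'
    refine Or.inl ⟨x, hxK, hxA, ?_, h1, hlev s' hs'.1 x hxK h2⟩
    rintro ⟨hp, hu⟩
    apply hs'.2
    rw [hT', mem_iUnion₂]
    refine ⟨connectedComponentIn K x, ⟨⟨x, hxK, rfl⟩, Fl.cc_subset_nd hxA, hu⟩, ?_, x, hxK, rfl,
      h2⟩
    by_contra hpos
    rw [not_le] at hpos
    exact hm ⟨hp, hpos⟩
  have hnull : volume (Prod.snd ⁻¹' (T ∪ T') : Set (ℝ × ℝ)) = 0 :=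
    Measure.quasiMeasurePreserving_snd.preimage_null ((hT.union hT'c).measure_zero volume)
  exact measure_mono_null hsub (measure_union_null h0 hnull)

end Vale.Agent.P116.KF
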