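import Mathlib
import Vale.Agent.P116.Slow.TPX

/-!
P116, full Koebe: the area of the image of `z ↦ (v z, w z)` for functions with continuous
majorants (upper gradients on segments).
-/

open Set Filter Topology Metric Bornology MeasureTheory
open scoped Real ENNReal

namespace Vale.Agent.P116.KF

open H906 Slow

/-- `ρ` is a majorant of `v` on `A`, on segments -/
def Maj (A : Set ℂ) (v ρ : ℂ → ℝ) : Prop :=
  ∀ x y, segment ℝ x y ⊆ A → ∀ B, (∀ z ∈ segment ℝ x y, ρ z ≤ B) → |v x - v y| ≤ B * ‖x - y‖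

lemma Maj.mono {A A' : Set ℂ} {v ρ : ℂ → ℝ} (h : Maj A v ρ) (hA : A' ⊆ A) : Maj A' v ρ :=
  fun x y hxy B hB => h x y (hxy.trans hA) B hB

/-- half open squares -/
def Tq (δ : ℝ) (p : ℤ × ℤ) : Set ℂ :=
  box (Ico (p.1 * δ) ((p.1 + 1) * δ)) (Ico (p.2 * δ) ((p.2 + 1) * δ))

lemma mem_Tq_iff {δ : ℝ} (hδ : 0 < δ) {p : ℤ × ℤ} {z : ℂ} :
    z ∈ Tq δ p ↔ p = (⌊z.re / δ⌋, ⌊z.im / δ⌋) := by
  have h1 : ∀ (x : ℝ) (k : ℤ), x ∈ Ico ((k:ℝ) * δ) ((k + 1) * δ) ↔ k = ⌊x / δ⌋ := by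
    intro x k
    rw [eq_comm, Int.floor_eq_iff, mem_Ico, le_div_iff₀ hδ, div_lt_iff₀ hδ]
  simp only [Tq, box, Set.mem_ofPred_eq, h1, Prod.ext_iff]

lemma convex_Tq (δ : ℝ) (p : ℤ × ℤ) : Convex ℝ (Tq δ p) := by
  have h : Tq δ p = Complex.reLm ⁻¹' (Ico (p.1 * δ) ((p.1 + 1) * δ)) ∩
      Complex.imLm ⁻¹' (Ico (p.2 * δ) ((p.2 + 1) * δ)) := rfl
  rw [h]
  exact ((convex_Ico _ _).linear_preimage _).inter ((convex_Ico _ _).linear_preimage _)

lemma dist_Tq {δ : ℝ} {p : ℤ × ℤ} {x y : ℂ} (hx : x ∈ Tq δ p) (hy : y ∈ Tq δ p) :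
    ‖x - y‖ ≤ 2 * δ := by
  obtain ⟨⟨h1, h2⟩, h3, h4⟩ := hx
  obtain ⟨⟨g1, g2⟩, g3, g4⟩ := hy
  refine (Complex.norm_le_abs_re_add_abs_im _).trans ?_
  rw [Complex.sub_re, Complex.sub_im]
  have e1 : |x.re - y.re| ≤ δ := by
    rw [abs_le]
    constructor <;> nlinarith
  have e2 : |x.im - y.im| ≤ δ := by
    rw [abs_le]
    constructor <;> nlinarith
  linarith

lemma volume_Tq {δ : ℝ} (p : ℤ × ℤ) : volume (Tq δ p) = ENNReal.ofReal δ * ENNReal.ofReal δ := by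
  rw [Tq, volume_box, Real.volume_Ico, Real.volume_Ico]
  congr 2 <;> ring

lemma measurableSet_Tq (δ : ℝ) (p : ℤ × ℤ) : MeasurableSet (Tq δ p) := by
  have h : Tq δ p = Complex.re ⁻¹' (Ico (p.1 * δ) ((p.1 + 1) * δ)) ∩
      Complex.im ⁻¹' (Ico (p.2 * δ) ((p.2 + 1) * δ)) := rfl
  rw [h]
  exact (Complex.measurable_re measurableSet_Ico).inter (Complex.measurable_im measurableSet_Ico)

/-- the pair of two functions, as a map into the plane -/
noncomputable def pr (v w : ℂ → ℝ) (z : ℂ) : ℂ := Complex.equivRealProdCLM.symm (v z, w z)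

lemma pr_re (v w : ℂ → ℝ) (z : ℂ) : (pr v w z).re = v z := rfl

lemma pr_im (v w : ℂ → ℝ) (z : ℂ) : (pr v w z).im = w z := rfl

lemma volume_le_of_osc {s : Set ℂ} {v : ℂ → ℝ} {B : ℝ} (h : ∀ x ∈ s, ∀ y ∈ s, |v x - v y| ≤ B) :
    volume (v '' s) ≤ ENNReal.ofReal B := by
  refine (Real.volume_le_diam _).trans ?_
  refine Metric.ediam_le ?_
  rintro _ ⟨x, hx, rfl⟩ _ ⟨y, hy, rfl⟩
  rw [edist_dist, Real.dist_eq]
  exact ENNReal.ofReal_le_ofReal (h x hx y hy)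

lemma volume_pr_le {s : Set ℂ} {v w : ℂ → ℝ} {B B' : ℝ} (h : ∀ x ∈ s, ∀ y ∈ s, |v x - v y| ≤ B)
    (h' : ∀ x ∈ s, ∀ y ∈ s, |w x - w y| ≤ B') :
    volume (pr v w '' s) ≤ ENNReal.ofReal B * ENNReal.ofReal B' := by
  have h1 : pr v w '' s ⊆ box (v '' s) (w '' s) := by
    rintro _ ⟨z, hz, rfl⟩
    exact ⟨⟨z, hz, rfl⟩, ⟨z, hz, rfl⟩⟩
  refine (measure_mono h1).trans ?_
  rw [volume_box]
  exact mul_le_mul' (volume_le_of_osc h) (volume_le_of_osc h')

variable {A C : Set ℂ} {v w ρ m : ℂ → ℝ}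

lemma area_step (hA : IsOpen A) (hC : IsCompact C) (hCA : C ⊆ A) (hv : Maj A v ρ)
    (hw : Maj A w m) (hρ : ContinuousOn ρ A) (hm : ContinuousOn m A) (hρ0 : ∀ z ∈ A, 0 ≤ ρ z)
    (hm0 : ∀ z ∈ A, 0 ≤ m z) : ∃ (C' : Set ℂ) (K₀ : ℝ), IsCompact C' ∧ C' ⊆ A ∧ 0 ≤ K₀ ∧
      ∀ η : ℝ, 0 < η → η ≤ 1 → volume (pr v w '' C) ≤
        (∫⁻ z in C', ENNReal.ofReal (4 * (ρ z * m z))) + ENNReal.ofReal (η * K₀) * volume C' := by
  obtain ⟨r₀, hr₀, hr₀A⟩ := hC.exists_cthickening_subset_open hA hCA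
  set C' := cthickening r₀ C with hC'
  have hC'c : IsCompact C' := hC.cthickening
  obtain ⟨B₁, hB₁⟩ := hC'c.exists_bound_of_continuousOn (hρ.mono hr₀A)
  obtain ⟨B₂, hB₂⟩ := hC'c.exists_bound_of_continuousOn (hm.mono hr₀A)
  set B := max (max B₁ B₂) 0 with hB
  have hB0 : 0 ≤ B := le_max_right _ _
  have hρB : ∀ z ∈ C', ρ z ≤ B := fun z hz =>
    (le_abs_self _).trans ((hB₁ z hz).trans ((le_max_left _ _).trans (le_max_left _ _)))
  have hmB : ∀ z ∈ C', m z ≤ B := fun z hz =>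
    (le_abs_self _).trans ((hB₂ z hz).trans ((le_max_right _ _).trans (le_max_left _ _)))
  refine ⟨C', 16 * B + 16, hC'c, hr₀A, by positivity, fun η hη hη1 => ?_⟩
  have hu1 := hC'c.uniformContinuousOn_of_continuous (hρ.mono hr₀A)
  have hu2 := hC'c.uniformContinuousOn_of_continuous (hm.mono hr₀A)
  rw [Metric.uniformContinuousOn_iff] at hu1 hu2
  obtain ⟨δ₁, hδ₁, h1⟩ := hu1 η hη
  obtain ⟨δ₂, hδ₂, h2⟩ := hu2 η hη
  set δ := min r₀ (min δ₁ δ₂) / 4 with hδdef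
  have hδ : 0 < δ := by positivity
  have hδr : 2 * δ ≤ r₀ := by
    have := min_le_left r₀ (min δ₁ δ₂)
    rw [hδdef]
    linarith
  have hδ1 : 2 * δ < δ₁ := by
    have := (min_le_right r₀ (min δ₁ δ₂)).trans (min_le_left _ _)
    rw [hδdef]
    linarith
  have hδ2 : 2 * δ < δ₂ := by
    have := (min_le_right r₀ (min δ₁ δ₂)).trans (min_le_right _ _)
    rw [hδdef]
    linarith
  -- the squares which meet `C`
  have key : ∀ p : ℤ × ℤ, volume (pr v w '' (C ∩ Tq δ p)) ≤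
      ∫⁻ z in Tq δ p ∩ C', ENNReal.ofReal (4 * (ρ z * m z) + η * (16 * B + 16)) := by
    intro p
    rcases (C ∩ Tq δ p).eq_empty_or_nonempty with he | ⟨x₀, hx₀C, hx₀T⟩
    · rw [he, image_empty, measure_empty]
      exact zero_le
    have hT : Tq δ p ⊆ C' := by
      intro z hz
      refine mem_cthickening_of_dist_le z x₀ r₀ C hx₀C ?_
      rw [dist_eq_norm]
      exact (dist_Tq hz hx₀T).trans hδr
    have hx₀' : x₀ ∈ C' := hT hx₀T
    have hn1 : ∀ z ∈ Tq δ p, |ρ z - ρ x₀| < η := by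
      intro z hz
      have := h1 z (hT hz) x₀ hx₀' (by
        rw [dist_eq_norm]
        exact (dist_Tq hz hx₀T).trans_lt hδ1)
      rwa [Real.dist_eq] at this
    have hn2 : ∀ z ∈ Tq δ p, |m z - m x₀| < η := by
      intro z hz
      have := h2 z (hT hz) x₀ hx₀' (by
        rw [dist_eq_norm]
        exact (dist_Tq hz hx₀T).trans_lt hδ2)
      rwa [Real.dist_eq] at this
    have hρx : 0 ≤ ρ x₀ := hρ0 _ (hCA hx₀C)
    have hmx : 0 ≤ m x₀ := hm0 _ (hCA hx₀C)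
    have g1 : ∀ x ∈ C ∩ Tq δ p, ∀ y ∈ C ∩ Tq δ p, |v x - v y| ≤ (ρ x₀ + η) * (2 * δ) := by
      intro x hx y hy
      have hseg := (convex_Tq δ p).segment_subset hx.2 hy.2
      refine (hv x y (hseg.trans (hT.trans hr₀A)) (ρ x₀ + η) fun z hz => ?_).trans ?_
      · have := (abs_lt.1 (hn1 z (hseg hz))).2
        linarith
      · exact mul_le_mul_of_nonneg_left (dist_Tq hx.2 hy.2) (by linarith)
    have g2 : ∀ x ∈ C ∩ Tq δ p, ∀ y ∈ C ∩ Tq δ p, |w x - w y| ≤ (m x₀ + η) * (2 * δ) := by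
      intro x hx y hy
      have hseg := (convex_Tq δ p).segment_subset hx.2 hy.2
      refine (hw x y (hseg.trans (hT.trans hr₀A)) (m x₀ + η) fun z hz => ?_).trans ?_
      · have := (abs_lt.1 (hn2 z (hseg hz))).2
        linarith
      · exact mul_le_mul_of_nonneg_left (dist_Tq hx.2 hy.2) (by linarith)
    calc volume (pr v w '' (C ∩ Tq δ p))
        ≤ ENNReal.ofReal ((ρ x₀ + η) * (2 * δ)) * ENNReal.ofReal ((m x₀ + η) * (2 * δ)) :=
          volume_pr_le g1 g2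
      _ = ENNReal.ofReal (4 * ((ρ x₀ + η) * (m x₀ + η))) * volume (Tq δ p) := by
          rw [volume_Tq, ← ENNReal.ofReal_mul (by positivity), ← ENNReal.ofReal_mul (by positivity),
            ← ENNReal.ofReal_mul (by positivity)]
          congr 1
          ring
      _ = ∫⁻ _z in Tq δ p, ENNReal.ofReal (4 * ((ρ x₀ + η) * (m x₀ + η))) := by
          rw [setLIntegral_const]
      _ ≤ ∫⁻ z in Tq δ p, ENNReal.ofReal (4 * (ρ z * m z) + η * (16 * B + 16)) := by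
          refine setLIntegral_mono' (measurableSet_Tq δ p) fun z hz => ?_
          apply ENNReal.ofReal_le_ofReal
          have a1 := (abs_lt.1 (hn1 z hz)).1
          have a2 := (abs_lt.1 (hn2 z hz)).1
          have a3 := hρB z (hT hz)
          have a4 := hmB z (hT hz)
          have a5 : 0 ≤ ρ z := hρ0 _ (hr₀A (hT hz))
          have a6 : 0 ≤ m z := hm0 _ (hr₀A (hT hz))
          have b1 : (ρ x₀ + η) * (m x₀ + η) ≤ (ρ z + 2 * η) * (m z + 2 * η) :=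
            mul_le_mul (by linarith) (by linarith) (by linarith) (by linarith)
          nlinarith
      _ ≤ ∫⁻ z in Tq δ p ∩ C', ENNReal.ofReal (4 * (ρ z * m z) + η * (16 * B + 16)) := by
          rw [inter_eq_left.2 hT]
  have hcov : pr v w '' C ⊆ ⋃ p, pr v w '' (C ∩ Tq δ p) := by
    rintro _ ⟨z, hz, rfl⟩
    exact mem_iUnion.2 ⟨(⌊z.re / δ⌋, ⌊z.im / δ⌋), z, ⟨hz, (mem_Tq_iff hδ).2 rfl⟩, rfl⟩
  calc volume (pr v w '' C) ≤ ∑' p, volume (pr v w '' (C ∩ Tq δ p)) :=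
        (measure_mono hcov).trans (measure_iUnion_le _)
    _ ≤ ∑' p, ∫⁻ z in Tq δ p ∩ C', ENNReal.ofReal (4 * (ρ z * m z) + η * (16 * B + 16)) :=
        ENNReal.tsum_le_tsum key
    _ = ∫⁻ z in ⋃ p, (Tq δ p ∩ C'), ENNReal.ofReal (4 * (ρ z * m z) + η * (16 * B + 16)) := by
        rw [lintegral_iUnion (fun p => (measurableSet_Tq δ p).inter hC'c.isClosed.measurableSet)]
        intro p q hpq
        rw [Function.onFun, disjoint_left]
        rintro z ⟨hz, -⟩ ⟨hz', -⟩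
        rw [mem_Tq_iff hδ] at hz hz'
        exact hpq (hz.trans hz'.symm)
    _ ≤ ∫⁻ z in C', ENNReal.ofReal (4 * (ρ z * m z) + η * (16 * B + 16)) :=
        lintegral_mono_set (iUnion_subset fun p => inter_subset_right)
    _ = ∫⁻ z in C', (ENNReal.ofReal (4 * (ρ z * m z)) + ENNReal.ofReal (η * (16 * B + 16))) := by
        refine setLIntegral_congr_fun hC'c.isClosed.measurableSet fun z hz => ?_
        rw [ENNReal.ofReal_add]
        · have a5 : 0 ≤ ρ z := hρ0 _ (hr₀A hz)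
          have a6 : 0 ≤ m z := hm0 _ (hr₀A hz)
          positivity
        · positivity
    _ = (∫⁻ z in C', ENNReal.ofReal (4 * (ρ z * m z))) +
          ENNReal.ofReal (η * (16 * B + 16)) * volume C' := by
        rw [lintegral_add_right _ measurable_const, setLIntegral_const]

lemma area_compact (hA : IsOpen A) (hC : IsCompact C) (hCA : C ⊆ A) (hv : Maj A v ρ)
    (hw : Maj A w m) (hρ : ContinuousOn ρ A) (hm : ContinuousOn m A) (hρ0 : ∀ z ∈ A, 0 ≤ ρ z)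
    (hm0 : ∀ z ∈ A, 0 ≤ m z) :
    volume (pr v w '' C) ≤ ∫⁻ z in A, ENNReal.ofReal (4 * (ρ z * m z)) := by
  obtain ⟨C', K₀, hC'c, hC'A, hK₀, h⟩ := area_step hA hC hCA hv hw hρ hm hρ0 hm0
  refine le_trans ?_ (lintegral_mono_set hC'A)
  have h1 : Tendsto (fun η : ℝ => (∫⁻ z in C', ENNReal.ofReal (4 * (ρ z * m z))) +
      ENNReal.ofReal (η * K₀) * volume C') (𝓝[>] 0)
      (𝓝 ((∫⁻ z in C', ENNReal.ofReal (4 * (ρ z * m z))) + ENNReal.ofReal (0 * K₀) * volume C')) := by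
    refine tendsto_const_nhds.add (ENNReal.Tendsto.mul_const ?_ (Or.inr hC'c.measure_lt_top.ne))
    refine (ENNReal.continuous_ofReal.tendsto _).comp ?_
    exact ((continuous_id.mul continuous_const).tendsto (0:ℝ)).mono_left nhdsWithin_le_nhds
  rw [zero_mul, ENNReal.ofReal_zero, zero_mul, add_zero] at h1
  refine ge_of_tendsto h1 ?_
  have h2 : ∀ᶠ η : ℝ in 𝓝[>] 0, η ≤ 1 := by
    filter_upwards [Ioc_mem_nhdsGT (zero_lt_one (α := ℝ))] with η hη using hη.2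
  filter_upwards [h2, self_mem_nhdsWithin] with η hη1 hη
  exact h η hη hη1

/-- **the area of the image**, functions with majorants -/
theorem area_open (hA : IsOpen A) (hv : Maj A v ρ) (hw : Maj A w m) (hρ : ContinuousOn ρ A)
    (hm : ContinuousOn m A) (hρ0 : ∀ z ∈ A, 0 ≤ ρ z) (hm0 : ∀ z ∈ A, 0 ≤ m z) :
    volume (pr v w '' A) ≤ ∫⁻ z in A, ENNReal.ofReal (4 * (ρ z * m z)) := by
  obtain ⟨F, hFc, hFA, hFU, hFm⟩ := hA.exists_iUnion_isClosed
  set D : ℕ → Set ℂ := fun n => F n ∩ closedBall 0 n with hD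
  have hDm : Monotone D := fun i j hij =>
    inter_subset_inter (hFm hij) (closedBall_subset_closedBall (by exact_mod_cast hij))
  have hDU : ⋃ n, D n = A := by
    apply Subset.antisymm
    · exact iUnion_subset fun n => inter_subset_left.trans (hFA n)
    · intro z hz
      rw [← hFU] at hz
      obtain ⟨n, hn⟩ := mem_iUnion.1 hz
      obtain ⟨k, hk⟩ := exists_nat_ge ‖z‖
      refine mem_iUnion.2 ⟨max n k, hFm (le_max_left _ _) hn, ?_⟩
      rw [mem_closedBall, dist_zero_right]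
      refine hk.trans ?_
      exact_mod_cast le_max_right _ _
  have h1 : pr v w '' A = ⋃ n, pr v w '' D n := by
    rw [← hDU, image_iUnion]
  rw [h1, Directed.measure_iUnion]
  · refine iSup_le fun n => ?_
    exact area_compact hA ((isCompact_closedBall _ _).inter_left (hFc n))
      (inter_subset_left.trans (hFA n)) hv hw hρ hm hρ0 hm0
  · intro i j
    exact ⟨max i j, image_mono (hDm (le_max_left _ _)), image_mono (hDm (le_max_right _ _))⟩

end Vale.Agent.P116.KF
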