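import Vale.Agent.P116.KF.FL

/-!
# Flattened functions stay compatible

`Lvl K u s` is the set of the points on the level `s` of `u` (at a component of `K`: the points
whose cluster interval contains `s`). `ZZ K W M u g` is the set of the pairs `(s, s')` such that
some point of `K ∩ W` outside `M` is on the level `s` of `u` and on the level `s'` of `g`. If `v` is a
flattening of `u` and `ZZ u g` is null, then `ZZ v g` is null.
-/

open Set Filter Topology Metric Bornology MeasureTheory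

namespace Vale.Agent.P116.KF.H807

open H906 KF

/-- the points on the level `s` -/
def Lvl (K : Set ℂ) (u : ℂ → ℝ) (s : ℝ) : Set ℂ :=
  (UpS K u s ∪ UpS K (fun z => - u z) (-s))ᶜ

/-- the oscillation of `u` at the end `z` is zero -/
def Osc0 (K : Set ℂ) (u : ℂ → ℝ) (z : ℂ) : Prop :=
  ∀ ε > 0, ∃ n, ∀ x ∈ nd K n z, x ∉ K → ∀ y ∈ nd K n z, y ∉ K → u x - u y ≤ ε

/-- the pairs of levels which meet at an end in `W` outside `M` -/
def ZZ (K W M : Set ℂ) (u g : ℂ → ℝ) : Set (ℝ × ℝ) :=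
  {p | ∃ z ∈ K, z ∈ W ∧ z ∉ M ∧ z ∈ Lvl K u p.1 ∧ z ∈ Lvl K g p.2}

variable {K W M M' : Set ℂ} {u v g : ℂ → ℝ} {s s' : ℝ} {z : ℂ}

lemma mem_Lvl : z ∈ Lvl K u s ↔ z ∉ UpS K u s ∧ z ∉ UpS K (fun z => - u z) (-s) := by
  rw [Lvl, mem_compl_iff, mem_union, not_or]

lemma Lvl_neg : Lvl K (fun z => - u z) (-s) = Lvl K u s := by
  unfold Lvl
  rw [union_comm]
  congr 3
  · funext z
    simp
  · simp

lemma exists_lt_of_notMem (hz : z ∈ K) (h : z ∉ UpS K u s) (n : ℕ) {t : ℝ} (ht : s < t) :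
    ∃ y ∈ nd K n z, y ∉ K ∧ u y < t := by
  by_contra hc
  push Not at hc
  exact h (Or.inr ⟨hz, n, t, ht, fun y hy hyK => hc y hy hyK⟩)

/-- the levels of an end in terms of the values in the nodes -/
lemma mem_Lvl_iff (hz : z ∈ K) : z ∈ Lvl K u s ↔
    ∀ n, ∀ ε > 0, (∃ y ∈ nd K n z, y ∉ K ∧ u y < s + ε) ∧ ∃ y ∈ nd K n z, y ∉ K ∧ s - ε < u y := by
  rw [mem_Lvl]
  constructor
  · rintro ⟨h1, h2⟩ n ε hε
    refine ⟨exists_lt_of_notMem hz h1 n (by linarith), ?_⟩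
    obtain ⟨y, hy, hyK, h3⟩ := exists_lt_of_notMem hz h2 n (t := -s + ε) (by linarith)
    exact ⟨y, hy, hyK, by linarith⟩
  · intro h
    constructor
    · rintro (h1 | ⟨-, n, t, ht, hn⟩)
      · exact h1.1 hz
      · obtain ⟨⟨y, hy, hyK, h3⟩, -⟩ := h n ((t - s) / 2) (by linarith)
        have := hn y hy hyK
        linarith
    · rintro (h1 | ⟨-, n, t, ht, hn⟩)
      · exact h1.1 hz
      · obtain ⟨-, y, hy, hyK, h3⟩ := h n ((t + s) / 2) (by linarith)
        have := hn y hy hyK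
        linarith

/-- the ends in one component of `K` have the same nodes -/
lemma nd_congr {z z' : ℂ} (h : z' ∈ connectedComponentIn K z) (n : ℕ) : nd K n z' = nd K n z := by
  have hz : z ∈ K := by
    by_contra hz
    rw [connectedComponentIn_eq_empty hz] at h
    exact h
  have h1 : connectedComponentIn K z ⊆ nd K n z :=
    isPreconnected_connectedComponentIn.subset_connectedComponentIn (mem_connectedComponentIn hz)
      ((connectedComponentIn_subset _ _).trans (subset_lev n))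
  exact nd_eq (h1 h)

lemma Lvl_congr {z z' : ℂ} (h : z' ∈ connectedComponentIn K z) : z' ∈ Lvl K u s ↔ z ∈ Lvl K u s := by
  have hz' : z' ∈ K := connectedComponentIn_subset _ _ h
  have hz : z ∈ K := by
    by_contra hz
    rw [connectedComponentIn_eq_empty hz] at h
    exact h
  rw [mem_Lvl_iff hz', mem_Lvl_iff hz]
  simp only [nd_congr h]

lemma Osc0_congr {z z' : ℂ} (h : z' ∈ connectedComponentIn K z) : Osc0 K u z' ↔ Osc0 K u z := by
  unfold Osc0
  simp only [nd_congr h]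

/-- an end with zero oscillation is on at most one level -/
lemma Osc0.eq (hz : z ∈ K) (h : Osc0 K u z) (h1 : z ∈ Lvl K u s) (h2 : z ∈ Lvl K u s') :
    s = s' := by
  have key : ∀ {s s' : ℝ}, z ∈ Lvl K u s → z ∈ Lvl K u s' → s ≤ s' := by
    intro s s' h1 h2
    by_contra hlt
    rw [not_le] at hlt
    obtain ⟨n, hn⟩ := h ((s - s') / 4) (by linarith)
    obtain ⟨-, x, hx, hxK, h3⟩ := (mem_Lvl_iff hz).1 h1 n ((s - s') / 4) (by linarith)
    obtain ⟨⟨y, hy, hyK, h4⟩, -⟩ := (mem_Lvl_iff hz).1 h2 n ((s - s') / 4) (by linarith)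
    have := hn x hx hxK y hy hyK
    linarith
  exact le_antisymm (key h1 h2) (key h2 h1)

/-- a countable set of vertical lines is null -/
lemma volume_prod_univ {T : Set ℝ} (hT : T.Countable) :
    volume (T ×ˢ (univ : Set ℝ) : Set (ℝ × ℝ)) = 0 := by
  rw [Measure.volume_eq_prod, Measure.prod_prod, hT.measure_zero, zero_mul]

lemma volume_univ_prod {T : Set ℝ} (hT : T.Countable) :
    volume ((univ : Set ℝ) ×ˢ T : Set (ℝ × ℝ)) = 0 := by
  rw [Measure.volume_eq_prod, Measure.prod_prod, hT.measure_zero, mul_zero]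

lemma volume_swap {A : Set (ℝ × ℝ)} : volume (Prod.swap ⁻¹' A) = volume A :=
  (Measure.measurePreserving_swap (μ := (volume : Measure ℝ)) (ν := (volume : Measure ℝ))
    ).measure_preimage_equiv (f := MeasurableEquiv.prodComm) A

lemma ZZ_swap : ZZ K W M g u = Prod.swap ⁻¹' ZZ K W M u g := by
  ext p
  constructor
  · rintro ⟨z, hz, hW, hM, h1, h2⟩
    exact ⟨z, hz, hW, hM, h2, h1⟩
  · rintro ⟨z, hz, hW, hM, h1, h2⟩
    exact ⟨z, hz, hW, hM, h2, h1⟩

lemma ZZ_mono {W' : Set ℂ} (h : W' ⊆ W) (hM : M ⊆ M') : ZZ K W' M' u g ⊆ ZZ K W M u g := by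
  rintro p ⟨z, hz, hW, h0, h1, h2⟩
  exact ⟨z, hz, h hW, fun hm => h0 (hM hm), h1, h2⟩

lemma volume_ZZ_comm : volume (ZZ K W M g u) = volume (ZZ K W M u g) := by
  rw [ZZ_swap, volume_swap]

/-- **Flattening keeps compatibility.** `M` contains the ends which are excluded in the hypothesis
(massive for `u` and for `g`), `M'` those which are excluded in the conclusion (massive for `v` and
for `g`). -/
theorem ZZ_flat {T : Set ℝ} (hT : T.Countable)
    (h : ∀ s ∉ T, ∀ z ∈ K, z ∈ W → z ∈ Lvl K v s → z ∈ Lvl K u s)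
    (hM : (connectedComponentIn K '' (K ∩ M)).Countable)
    (hM' : ∀ z ∈ K, z ∈ W → z ∈ M → z ∉ M' → Osc0 K v z ∨ Osc0 K g z)
    (h0 : volume (ZZ K W M u g) = 0) : volume (ZZ K W M' v g) = 0 := by
  classical
  -- the levels of the new ends
  have hcnt : ∀ f : ℂ → ℝ, {s | ∃ z ∈ K, z ∈ M ∧ Osc0 K f z ∧ z ∈ Lvl K f s}.Countable := by
    intro f
    have h1 : {s | ∃ z ∈ K, z ∈ M ∧ Osc0 K f z ∧ z ∈ Lvl K f s} ⊆
        ⋃ c ∈ connectedComponentIn K '' (K ∩ M),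
          {s | ∃ z, connectedComponentIn K z = c ∧ z ∈ K ∧ Osc0 K f z ∧ z ∈ Lvl K f s} := by
      rintro s ⟨z, hz, hzM, h1, h2⟩
      rw [mem_iUnion₂]
      exact ⟨_, ⟨z, ⟨hz, hzM⟩, rfl⟩, z, rfl, hz, h1, h2⟩
    refine (hM.biUnion fun c _ => Set.Subsingleton.countable ?_).mono h1
    rintro s ⟨z, hzc, hz, h3, h4⟩ s' ⟨z', hzc', hz', h3', h4'⟩
    have h5 : z' ∈ connectedComponentIn K z := by
      rw [hzc, ← hzc']
      exact mem_connectedComponentIn hz'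
    exact h3.eq hz h4 ((Lvl_congr h5).1 h4')
  have hsub : ZZ K W M' v g ⊆ ZZ K W M u g ∪ (T ×ˢ univ ∪
      ({s | ∃ z ∈ K, z ∈ M ∧ Osc0 K v z ∧ z ∈ Lvl K v s} ×ˢ univ ∪
        univ ×ˢ {s | ∃ z ∈ K, z ∈ M ∧ Osc0 K g z ∧ z ∈ Lvl K g s})) := by
    rintro ⟨s, s'⟩ ⟨z, hz, hzW, hzM, h1, h2⟩
    by_cases hs : s ∈ T
    · exact Or.inr (Or.inl ⟨hs, mem_univ _⟩)
    by_cases hzm : z ∈ M
    · rcases hM' z hz hzW hzm hzM with h3 | h3
      · exact Or.inr (Or.inr (Or.inl ⟨⟨z, hz, hzm, h3, h1⟩, mem_univ _⟩))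
      · exact Or.inr (Or.inr (Or.inr ⟨mem_univ _, ⟨z, hz, hzm, h3, h2⟩⟩))
    · exact Or.inl ⟨z, hz, hzW, hzm, h s hs z hz hzW h1, h2⟩
  refine measure_mono_null hsub ?_
  rw [measure_union_null_iff, measure_union_null_iff, measure_union_null_iff]
  exact ⟨h0, volume_prod_univ hT, volume_prod_univ (hcnt v), volume_univ_prod (hcnt g)⟩

/-- the version with the massive ends (`¬ Osc0`) of both functions excluded -/
theorem ZZ_flat_massive {T : Set ℝ} (hT : T.Countable)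
    (h : ∀ s ∉ T, ∀ z ∈ K, z ∈ W → z ∈ Lvl K v s → z ∈ Lvl K u s)
    (hM : (connectedComponentIn K '' {z | z ∈ K ∧ z ∈ W ∧ ¬ Osc0 K u z ∧ ¬ Osc0 K g z}).Countable)
    (h0 : volume (ZZ K W {z | ¬ Osc0 K u z ∧ ¬ Osc0 K g z} u g) = 0) :
    volume (ZZ K W {z | ¬ Osc0 K v z ∧ ¬ Osc0 K g z} v g) = 0 := by
  have e : ZZ K W {z | ¬ Osc0 K u z ∧ ¬ Osc0 K g z} u g =
      ZZ K W {z | z ∈ W ∧ ¬ Osc0 K u z ∧ ¬ Osc0 K g z} u g := by
    ext p
    constructor
    · rintro ⟨z, hz, hW, h1, h2⟩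
      exact ⟨z, hz, hW, fun h => h1 h.2, h2⟩
    · rintro ⟨z, hz, hW, h1, h2⟩
      exact ⟨z, hz, hW, fun h => h1 ⟨hW, h⟩, h2⟩
  rw [e] at h0
  refine ZZ_flat (M := {z | z ∈ W ∧ ¬ Osc0 K u z ∧ ¬ Osc0 K g z}) hT h hM (fun z _ _ _ hz => ?_) h0
  by_cases h1 : Osc0 K v z
  · exact Or.inl h1
  · by_cases h2 : Osc0 K g z
    · exact Or.inr h2
    · exact absurd ⟨h1, h2⟩ hz

/-- the oscillation at an end does not increase under a map which does not increase the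
oscillation of nodes -/
lemma Osc0.of_osc (hosc : ∀ A : Set ℂ, IsPreconnected A → Reg K A → ∀ a b : ℝ,
      (∀ z ∈ A, z ∉ K → a ≤ u z ∧ u z ≤ b) →
      ∀ x ∈ A, x ∉ K → ∀ y ∈ A, y ∉ K → |v x - v y| ≤ b - a) (h : Osc0 K u z) : Osc0 K v z := by
  intro ε hε
  obtain ⟨n, hn⟩ := h (ε / 2) (by positivity)
  refine ⟨n, fun x hx hxK y hy hyK => ?_⟩
  have h1 := hosc (nd K n z) (isPreconnected_nd n z) (reg_nd n z) (u x - ε / 2) (u x + ε / 2)
    (fun p hp hpK => ⟨by linarith [hn x hx hxK p hp hpK], by linarith [hn p hp hpK x hx hxK]⟩)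
    x hx hxK y hy hyK
  linarith [le_abs_self (v x - v y)]

/-- the output of `exists_flat` in the form of `ZZ_flat` -/
lemma lvl_of_flat {T : Set ℝ} (h : ∀ s ∉ T, ∀ z ∈ K,
      z ∉ UpS K v s → z ∉ UpS K (fun z => - v z) (-s) →
      z ∉ UpS K u s ∧ z ∉ UpS K (fun z => - u z) (-s)) :
    ∀ s ∉ T, ∀ z ∈ K, z ∈ W → z ∈ Lvl K v s → z ∈ Lvl K u s := by
  intro s hs z hz _ hl
  rw [mem_Lvl] at hl ⊢
  exact h s hs z hz hl.1 hl.2

end Vale.Agent.P116.KF.H807
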