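import Vale.Agent.P116.KF.Spec
import Vale.Agent.P116.KF.FLcomp

/-!
# Full Koebe: flattening preserves compatibility (`CmpFlatP`)
-/

open Set Filter Topology Metric Bornology MeasureTheory

namespace Vale.Agent.P116.KF.H807

open H906 KB

variable {K : Set ℂ} {f : ℂ → ℝ} {x : ℂ}

lemma mem_EI {s : ℝ} : s ∈ EI K f x ↔ x ∈ Lvl K f s := mem_Lvl.symm

/-- the union of the nodes around a component is one node -/
lemma iUnion_nd (hx : x ∈ K) (n : ℕ) :
    ⋃ y ∈ connectedComponentIn K x, nd K n y = nd K n x := by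
  apply Subset.antisymm
  · exact iUnion₂_subset fun y hy => (nd_congr hy n).subset
  · exact subset_iUnion₂_of_subset x (mem_connectedComponentIn hx) Subset.rfl

lemma oscC_eq (hx : x ∈ K) : oscC K f (connectedComponentIn K x) = ⨅ n, oscS K f (nd K n x) := by
  unfold oscC
  simp only [iUnion_nd hx]

lemma sub_le_oscS {B : ℝ} (hB : ∀ z ∈ lev K 0, z ∉ K → |f z| ≤ B) {A : Set ℂ} (hA : A ⊆ lev K 0)
    {y z : ℂ} (hy : y ∈ A) (hyK : y ∉ K) (hz : z ∈ A) (hzK : z ∉ K) : f y - f z ≤ oscS K f A := by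
  have h1 : BddAbove (f '' (A \ K)) := ⟨B, by
    rintro _ ⟨p, hp, rfl⟩
    exact (abs_le.1 (hB p (hA hp.1) hp.2)).2⟩
  have h2 : BddBelow (f '' (A \ K)) := ⟨-B, by
    rintro _ ⟨p, hp, rfl⟩
    exact (abs_le.1 (hB p (hA hp.1) hp.2)).1⟩
  exact sub_le_sub (le_csSup h1 ⟨y, ⟨hy, hyK⟩, rfl⟩) (csInf_le h2 ⟨z, ⟨hz, hzK⟩, rfl⟩)

/-- zero oscillation in the two forms -/
lemma osc0_of_oscC {B : ℝ} (hB : ∀ z ∈ lev K 0, z ∉ K → |f z| ≤ B) (hx : x ∈ K)
    (h : ¬ 0 < oscC K f (connectedComponentIn K x)) : Osc0 K f x := by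
  intro ε hε
  rw [oscC_eq hx, not_lt] at h
  obtain ⟨n, hn⟩ := exists_lt_of_ciInf_lt (h.trans_lt hε)
  refine ⟨n, fun y hy hyK z hz hzK => ?_⟩
  have hA : nd K n x ⊆ lev K 0 := (nd_subset n x).trans (lev_anti (Nat.zero_le n))
  exact (sub_le_oscS hB hA hy hyK hz hzK).trans hn.le

lemma comp_subset_nd {n : ℕ} {p x : ℂ} (hp : p ∈ K) (hpx : p ∈ nd K n x) :
    connectedComponentIn K p ⊆ nd K n x := by
  have h1 : connectedComponentIn K p ⊆ nd K n p :=
    isPreconnected_connectedComponentIn.subset_connectedComponentIn (mem_connectedComponentIn hp)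
      ((connectedComponentIn_subset _ _).trans (subset_lev n))
  rwa [nd_eq hpx] at h1

/-- a function with summable oscillations has countably many massive components -/
lemma countable_massive {n : ℕ} {ρ : ℂ → ℝ} (h : Hon K (nd K n x) f ρ) :
    (connectedComponentIn K '' (K ∩ {z | z ∈ nd K n x ∧
      0 < oscC K f (connectedComponentIn K z)})).Countable := by
  classical
  have h1 := h.sum.countable_support
  refine (h1.image (fun c : comps K => (c : Set ℂ))).mono ?_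
  rintro _ ⟨z, ⟨hz, hzn, hpos⟩, rfl⟩
  refine ⟨⟨connectedComponentIn K z, z, hz, rfl⟩, ?_, rfl⟩
  rw [Function.mem_support]
  simp only [if_pos (comp_subset_nd hz hzn)]
  exact pow_ne_zero 2 hpos.ne'

theorem cmpFlatP : CmpFlatP := by
  intro K hK hf n x hx w u v ρ' hu hv hF g ρ hg h0
  obtain ⟨T, hT, hTl⟩ := hF.lev
  obtain ⟨Bv, hBv⟩ := hv.bdd
  obtain ⟨Bg, hBg⟩ := hg.bdd
  set W := nd K n x with hW
  have e1 : Zs K W g u = Prod.swap ⁻¹' ZZ K W {z | z ∈ W ∧
      0 < oscC K g (connectedComponentIn K z) ∧ 0 < oscC K u (connectedComponentIn K z)} u g := by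
    ext q
    constructor
    · rintro ⟨z, hz, hzW, h1, h2, h3⟩
      exact ⟨z, hz, hzW, fun h => h1 h.2, mem_EI.1 h3, mem_EI.1 h2⟩
    · rintro ⟨z, hz, hzW, h1, h2, h3⟩
      exact ⟨z, hz, hzW, fun h => h1 ⟨hzW, h⟩, mem_EI.2 h3, mem_EI.2 h2⟩
  have e2 : Zs K W g v = Prod.swap ⁻¹' ZZ K W {z |
      0 < oscC K g (connectedComponentIn K z) ∧ 0 < oscC K v (connectedComponentIn K z)} v g := by
    ext q
    constructor
    · rintro ⟨z, hz, hzW, h1, h2, h3⟩
      exact ⟨z, hz, hzW, h1, mem_EI.1 h3, mem_EI.1 h2⟩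
    · rintro ⟨z, hz, hzW, h1, h2, h3⟩
      exact ⟨z, hz, hzW, h1, mem_EI.2 h3, mem_EI.2 h2⟩
  rw [e1, volume_swap] at h0
  rw [e2, volume_swap]
  refine ZZ_flat hT ?_ ?_ ?_ h0
  · intro s hs z hz _ hl
    exact mem_EI.1 (hTl s hs z hz (mem_EI.2 hl))
  · refine (countable_massive hu).mono (image_mono ?_)
    rintro z ⟨hz, hzW, -, h2⟩
    exact ⟨hz, hzW, h2⟩
  · intro z hz _ _ hM'
    by_cases h1 : 0 < oscC K v (connectedComponentIn K z)
    · right
      exact osc0_of_oscC hBg hz fun h2 => hM' ⟨h2, h1⟩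
    · left
      exact osc0_of_oscC hBv hz h1

end Vale.Agent.P116.KF.H807
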