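import Mathlib
import Vale.Agent.P116.KF.FL

/-!
# Flattening inside finitely many disjoint nodes
-/

open Set Filter Topology Metric Bornology

namespace Vale.Agent.P116.KF

open H906

variable {K : Set ℂ} {u : ℂ → ℝ}

/-- **Flattening inside finitely many disjoint full compact sets.** -/
theorem exists_flat_fam (hK : IsCompact K) (hf : Full K) {W : Set (Set ℂ)} (hWf : W.Finite)
    (hdis : ∀ w ∈ W, ∀ w' ∈ W, w ≠ w' → Disjoint w w')
    (hW : ∀ w ∈ W, IsCompact w ∧ Full w ∧ Disjoint (frontier w) K)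
    (hu : ContinuousOn u Kᶜ)
    (hb : ∀ w ∈ W, ∃ B, ∀ z ∈ w, z ∉ K → |u z| ≤ B) :
    ∃ v : ℂ → ℝ, (∀ z, (∀ w ∈ W, z ∉ w) → v z = u z) ∧
      (∀ w ∈ W, ∀ z ∈ frontier w, v z = u z) ∧
      ContinuousOn v Kᶜ ∧ (∀ w ∈ W, SMon K w v) ∧
      (∀ A : Set ℂ, IsPreconnected A → Reg K A → ∀ a b : ℝ,
        (∀ z ∈ A, z ∉ K → a ≤ u z ∧ u z ≤ b) →
        ∀ x ∈ A, x ∉ K → ∀ y ∈ A, y ∉ K → |v x - v y| ≤ b - a) ∧
      (∀ rho : ℂ → ℝ, UGr Kᶜ u rho → UGr Kᶜ v rho) ∧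
      (∀ w ∈ W, ∀ a b : ℝ, (∀ z ∈ w, z ∉ K → a ≤ u z ∧ u z ≤ b) →
        ∀ z ∈ w, z ∉ K → a ≤ v z ∧ v z ≤ b) ∧
      ∃ T : Set ℝ, T.Countable ∧ ∀ s ∉ T, ∀ z ∈ K,
        z ∉ UpS K v s → z ∉ UpS K (fun z => - v z) (-s) →
        z ∉ UpS K u s ∧ z ∉ UpS K (fun z => - u z) (-s) := by
  induction W, hWf using Set.Finite.induction_on with
  | empty =>
    refine ⟨u, fun _ _ => rfl, fun _ _ _ _ => rfl, hu, fun w hw => absurd hw (notMem_empty w),
      fun A _ _ a b hab x hx hxK y hy hyK => ?_, fun _ h => h,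
      fun w hw => absurd hw (notMem_empty w), ∅, countable_empty, fun s _ z _ h1 h2 => ⟨h1, h2⟩⟩
    have h1 := hab x hx hxK
    have h2 := hab y hy hyK
    rw [abs_le]
    constructor <;> linarith
  | @insert w0 W hw0 hWf ih =>
    obtain ⟨v1, off1, fr1, c1, sm1, osc1, ug1, rg1, T1, hT1, lev1⟩ := ih
      (fun w hw w' hw' => hdis w (mem_insert_of_mem _ hw) w' (mem_insert_of_mem _ hw'))
      (fun w hw => hW w (mem_insert_of_mem _ hw)) (fun w hw => hb w (mem_insert_of_mem _ hw))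
    obtain ⟨cw0, fw0, frw0⟩ := hW w0 (mem_insert _ _)
    have hd : ∀ w ∈ W, Disjoint w0 w := fun w hw =>
      hdis w0 (mem_insert _ _) w (mem_insert_of_mem _ hw) (fun h => hw0 (h ▸ hw))
    -- `v1 = u` on `w0`
    have e1 : ∀ z ∈ w0, v1 z = u z := fun z hz =>
      off1 z fun w hw => disjoint_left.1 (hd w hw) hz
    obtain ⟨B, hB⟩ := hb w0 (mem_insert _ _)
    obtain ⟨v2, off2, fr2, c2, sm2, osc2, ug2, rg2, T2, hT2, lev2⟩ :=
      exists_flat hK hf cw0 fw0 frw0 c1 ⟨B, fun z hz hzK => by rw [e1 z hz]; exact hB z hz hzK⟩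
    -- `v2 = v1` on the other sets
    have e2 : ∀ w ∈ W, ∀ z ∈ w, v2 z = v1 z := fun w hw z hz =>
      off2 z (disjoint_right.1 (hd w hw) hz)
    refine ⟨v2, ?_, ?_, c2, ?_, ?_, fun rho h => ug2 rho (ug1 rho h), ?_, T1 ∪ T2,
      hT1.union hT2, ?_⟩
    · intro z hz
      rw [off2 z (hz w0 (mem_insert _ _)), off1 z fun w hw => hz w (mem_insert_of_mem _ hw)]
    · rintro w (rfl | hw) z hz
      · rw [fr2 z hz, e1 z (cw0.isClosed.frontier_subset hz)]
      · have hzw : z ∈ w := (hW w (mem_insert_of_mem _ hw)).1.isClosed.frontier_subset hz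
        rw [e2 w hw z hzw, fr1 w hw z hz]
    · rintro w (rfl | hw)
      · exact sm2
      · have hfr := (hW w (mem_insert_of_mem _ hw)).2.2
        exact ⟨SU.congr_compl hK hf hfr (fun z hz _ => (e2 w hw z hz).symm) (sm1 w hw).1,
          SU.congr_compl hK hf hfr (fun z hz _ => by rw [e2 w hw z hz]) (sm1 w hw).2⟩
    · intro A hA hAr a b hab x hx hxK y hy hyK
      have h1 : ∀ p ∈ A \ K, ∀ q ∈ A \ K, v1 p - v1 q ≤ b - a := fun p hp q hq =>
        (le_abs_self _).trans (osc1 A hA hAr a b hab p hp.1 hp.2 q hq.1 hq.2)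
      have hne : (v1 '' (A \ K)).Nonempty := ⟨_, x, ⟨hx, hxK⟩, rfl⟩
      have hbb : BddBelow (v1 '' (A \ K)) := ⟨v1 x - (b - a), by
        rintro _ ⟨q, hq, rfl⟩
        have := h1 x ⟨hx, hxK⟩ q hq
        linarith⟩
      have hba : BddAbove (v1 '' (A \ K)) := ⟨v1 x + (b - a), by
        rintro _ ⟨q, hq, rfl⟩
        have := h1 q hq x ⟨hx, hxK⟩
        linarith⟩
      have h2 : sSup (v1 '' (A \ K)) - sInf (v1 '' (A \ K)) ≤ b - a := by
        have h3 : sSup (v1 '' (A \ K)) ≤ sInf (v1 '' (A \ K)) + (b - a) := by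
          refine csSup_le hne ?_
          rintro _ ⟨p, hp, rfl⟩
          have h4 : v1 p - (b - a) ≤ sInf (v1 '' (A \ K)) := by
            refine le_csInf hne ?_
            rintro _ ⟨q, hq, rfl⟩
            have := h1 p hp q hq
            linarith
          linarith
        linarith
      refine (osc2 A hA hAr _ _ (fun z hz hzK => ?_) x hx hxK y hy hyK).trans h2
      exact ⟨csInf_le hbb ⟨z, ⟨hz, hzK⟩, rfl⟩, le_csSup hba ⟨z, ⟨hz, hzK⟩, rfl⟩⟩
    · rintro w (rfl | hw) a b hab z hz hzK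
      · exact rg2 a b (fun y hy hyK => by rw [e1 y hy]; exact hab y hy hyK) z hz hzK
      · rw [e2 w hw z hz]
        exact rg1 w hw a b hab z hz hzK
    · intro s hs z hz h1 h2
      rw [mem_union, not_or] at hs
      obtain ⟨h3, h4⟩ := lev2 s hs.2 z hz h1 h2
      exact lev1 s hs.1 z hz h3 h4

end Vale.Agent.P116.KF
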