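import Mathlib
import Vale.Agent.P116.KF.AreaH

/-!
P116, full Koebe, the length-area inequality for functions with continuous majorants.
-/

open Set Filter Topology Metric Bornology MeasureTheory
open scoped Real ENNReal

namespace Vale.Agent.P116.KF

open H906 Slow

/-- the projections of a holomorphic function -/
lemma maj_prj {O : Set ℂ} {f : ℂ → ℂ} (hO : IsOpen O) (hd : DifferentiableOn ℂ f O) {a : ℂ}
    (ha : ‖a‖ = 1) : Maj O (fun z => prj a (f z)) (fun z => ‖deriv f z‖) := by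
  intro x y hxy B hB
  have h1 := (convex_segment x y).norm_image_sub_le_of_norm_deriv_le (𝕜 := ℂ) (f := f) (C := B)
    (fun z hz => hd.differentiableAt (hO.mem_nhds (hxy hz))) hB (right_mem_segment ℝ x y)
    (left_mem_segment ℝ x y)
  have e : prj a (f x) - prj a (f y) = (a * (f x - f y)).re := by simp [prj, mul_sub]
  beta_reduce
  rw [e]
  refine (Complex.abs_re_le_norm _).trans ?_
  rw [norm_mul, ha, one_mul]
  exact h1

theorem rect0 {S : Set (Set ℂ)} (hS : Adm S) {f : ℂ → ℂ} {c : Set ℂ → ℂ} {r : Set ℂ → ℝ}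
    (h : CMap S f c r) {v ρ : ℂ → ℝ} (hv : Continuous v) {Q : Set ℂ} (hQ : IsPreconnected Q)
    {R M N ε₁ ε₂ : ℝ} (h1 : ∀ z ∈ Q, v z = 1) (h0 : ∀ z, R ≤ ‖z‖ → v z = 0)
    (hρ : ContinuousOn ρ ((⋃₀ S)ᶜ ∩ v ⁻¹' Ioo 0 1))
    (hρ0 : ∀ z ∈ (⋃₀ S)ᶜ ∩ v ⁻¹' Ioo 0 1, 0 ≤ ρ z)
    (hmaj : Maj ((⋃₀ S)ᶜ ∩ v ⁻¹' Ioo 0 1) v ρ)
    (hM : Tm S f c r (ball 0 R) ⊆ closedBall 0 M) (hM0 : 0 ≤ M) (hN : 0 < N) (hε₁ : 0 ≤ ε₁)
    (hen : ∫⁻ z in (⋃₀ S)ᶜ ∩ v ⁻¹' Ioo 0 1, ENNReal.ofReal (ρ z ^ 2) ≤ ENNReal.ofReal ε₁)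
    {J : Finset (Set ℂ)} (hJS : ∀ P, P ∈ J ↔ P ∈ S)
    (hPM : ∀ P ∈ J, closedBall (c P) (r P) ⊆ closedBall 0 M)
    (hJ : ∑ P ∈ J, diam (v '' P) ^ 2 ≤ ε₂) {a : ℂ} (ha : ‖a‖ = 1) {w₁ w₂ : ℂ}
    (hw₁ : w₁ ∈ Tm S f c r Q) (hw₂ : w₂ ∈ Tm S f c r Q) :
    prj a w₂ - prj a w₁ ≤ 2 * N * ε₁ + 2 * π * M ^ 2 / N + (N * ε₂ + M ^ 2 / N) := by
  have h7 : 0 ≤ ε₂ := (Finset.sum_nonneg fun P _ => by positivity).trans hJ
  rcases le_total (prj a w₂) (prj a w₁) with hle | hle
  · have : 0 ≤ 2 * N * ε₁ + 2 * π * M ^ 2 / N + (N * ε₂ + M ^ 2 / N) := by positivity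
    linarith
  set α := prj a w₁ with hα
  set β := prj a w₂ with hβ
  set O : Set ℂ := (⋃₀ S)ᶜ with hO
  have hOo : IsOpen O := hS.isOpen_compl
  set A : Set ℂ := O ∩ v ⁻¹' Ioo 0 1 with hA
  have hAo : IsOpen A := hOo.inter (isOpen_Ioo.preimage hv)
  set w : ℂ → ℝ := fun z => prj a (f z) with hw
  have hAR : A ⊆ ball 0 R := by
    intro z hz
    by_contra hcon
    rw [mem_ball, dist_zero_right, not_lt] at hcon
    have h2 := hz.2.1
    rw [h0 z hcon] at h2
    exact lt_irrefl _ h2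
  -- the covering
  have hcover : box (Ioo 0 1) (Ioo α β) ⊆ pr v w '' A ∪
      ⋃ P ∈ J, box (v '' P) (prj a '' closedBall (c P) (r P)) := by
    rintro ω ⟨ht, hτ⟩
    set t := ω.re with htdef
    set τ := ω.im with hτdef
    set Δ : Set ℂ := {ω : ℂ | prj a ω = τ} with hΔ
    have hpull := h.pull hS (isPreconnected_line a τ)
    have hunb := h.pull_unbdd hS (not_isBounded_line ha τ)
    obtain ⟨ω₁, hω₁, hω₁τ⟩ := (isPreconnected_prj (h.push hS hQ) a).ordConnected.out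
      (mem_image_of_mem _ hw₁) (mem_image_of_mem _ hw₂) (⟨hτ.1.le, hτ.2.le⟩ : τ ∈ Icc _ _)
    -- a point in `Q`
    obtain ⟨z₁, hz₁, hz₁b⟩ : ∃ z₁ ∈ Tp S f c r Δ, z₁ ∈ Q := by
      rcases hω₁ with ⟨z, ⟨hz, hzO⟩, rfl⟩ | hω₁
      · exact ⟨z, Or.inl ⟨hzO, hω₁τ⟩, hz⟩
      · obtain ⟨P, ⟨hP, z, hz, hzP⟩, hvP⟩ := mem_iUnion₂.1 hω₁
        exact ⟨z, Or.inr ⟨P, hP, hzP, ω₁, hω₁τ, hvP⟩, hz⟩
    -- a far point
    obtain ⟨z₂, hz₂, hz₂b⟩ : ∃ z₂ ∈ Tp S f c r Δ, R ≤ ‖z₂‖ := by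
      by_contra hcon
      push Not at hcon
      exact hunb ((isBounded_ball (x := (0:ℂ)) (r := R)).subset fun z hz => by
        rw [mem_ball, dist_zero_right]
        exact hcon z hz)
    obtain ⟨z, hz, hzt⟩ := (hpull.image v hv.continuousOn).ordConnected.out
      (mem_image_of_mem v hz₂) (mem_image_of_mem v hz₁)
      (by rw [h0 z₂ hz₂b, h1 z₁ hz₁b]; exact ⟨ht.1.le, ht.2.le⟩ : t ∈ Icc _ _)
    rcases hz with ⟨hzO, hzτ⟩ | ⟨P, hP, hzP, v', hv', hv'P⟩
    · left
      refine ⟨z, ⟨hzO, ?_⟩, Complex.ext ?_ ?_⟩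
      · rw [mem_preimage, hzt]
        exact ht
      · rw [pr_re, hzt]
      · rw [pr_im]
        exact hzτ
    · right
      exact mem_iUnion₂.2 ⟨P, (hJS P).2 hP, ⟨z, hzP, hzt⟩, v', hv'P, hv'⟩
  have hmeas := measure_mono (μ := volume) hcover
  rw [volume_box] at hmeas
  have hb1 : volume (Ioo (0:ℝ) 1) = 1 := by simp
  rw [hb1, one_mul, Real.volume_Ioo] at hmeas
  -- the open part
  have hd : DifferentiableOn ℂ f A := h.nu.diff.mono inter_subset_left
  have hdc : ContinuousOn (fun z => ‖deriv f z‖) A := (hd.deriv hAo).continuousOn.norm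
  have hA1 : volume (pr v w '' A) ≤
      ENNReal.ofReal (2 * N * ε₁ + 2 * π * M ^ 2 / N) := by
    refine (area_open hAo hmaj (maj_prj hAo hd ha) hρ hdc hρ0 fun z _ => norm_nonneg _).trans ?_
    have h2 : ∀ z, ENNReal.ofReal (4 * (ρ z * ‖deriv f z‖)) ≤
        ENNReal.ofReal (2 * N) * ENNReal.ofReal (ρ z ^ 2) +
          ENNReal.ofReal (2 / N) * ENNReal.ofReal (‖deriv f z‖ ^ 2) := by
      intro z
      rw [← ENNReal.ofReal_mul (by positivity), ← ENNReal.ofReal_mul (by positivity),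
        ← ENNReal.ofReal_add (by positivity) (by positivity)]
      apply ENNReal.ofReal_le_ofReal
      have h4 : 2 * N * ρ z ^ 2 + 2 / N * ‖deriv f z‖ ^ 2 - 4 * (ρ z * ‖deriv f z‖) =
          2 * (N * ρ z - ‖deriv f z‖) ^ 2 / N := by
        field_simp
        ring
      have h5 : 0 ≤ 2 * (N * ρ z - ‖deriv f z‖) ^ 2 / N := by positivity
      linarith
    calc ∫⁻ z in A, ENNReal.ofReal (4 * (ρ z * ‖deriv f z‖))
        ≤ ∫⁻ z in A, (ENNReal.ofReal (2 * N) * ENNReal.ofReal (ρ z ^ 2) +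
          ENNReal.ofReal (2 / N) * ENNReal.ofReal (‖deriv f z‖ ^ 2)) :=
          lintegral_mono fun z => h2 z
      _ = ENNReal.ofReal (2 * N) * (∫⁻ z in A, ENNReal.ofReal (ρ z ^ 2)) +
          ENNReal.ofReal (2 / N) * ∫⁻ z in A, ENNReal.ofReal (‖deriv f z‖ ^ 2) := by
          rw [lintegral_add_left', lintegral_const_mul', lintegral_const_mul']
          · exact ENNReal.ofReal_ne_top
          · exact ENNReal.ofReal_ne_top
          · exact (((hρ.pow 2).aemeasurable hAo.measurableSet).ennreal_ofReal).const_mul _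
      _ ≤ ENNReal.ofReal (2 * N) * ENNReal.ofReal ε₁ + ENNReal.ofReal (2 / N) *
          ENNReal.ofReal (π * M ^ 2) := by
          gcongr
          rw [area_image hAo hd (h.nu.inj.mono inter_subset_left) hAo.measurableSet subset_rfl,
            ← volume_closedBall_real 0 hM0]
          refine measure_mono ?_
          rintro _ ⟨z, hz, rfl⟩
          exact hM (Or.inl ⟨z, ⟨hAR hz, hz.1⟩, rfl⟩)
      _ = ENNReal.ofReal (2 * N * ε₁ + 2 * π * M ^ 2 / N) := by
          rw [← ENNReal.ofReal_mul (by positivity), ← ENNReal.ofReal_mul (by positivity),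
            ← ENNReal.ofReal_add (by positivity) (by positivity)]
          congr 1
          field_simp
  -- the boxes
  have hB : volume (⋃ P ∈ J, box (v '' P) (prj a '' closedBall (c P) (r P))) ≤
      ENNReal.ofReal (N * ε₂ + M ^ 2 / N) := by
    have hr : ∀ P ∈ J, 0 ≤ r P := fun P hP => (h.rpos P ((hJS P).1 hP)).le
    have h2 : ∀ P ∈ J, volume (box (v '' P) (prj a '' closedBall (c P) (r P))) ≤
        ENNReal.ofReal (N * diam (v '' P) ^ 2 + r P ^ 2 / N) := by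
      intro P hP
      rw [volume_box]
      have h3 : volume (v '' P) ≤ ENNReal.ofReal (diam (v '' P)) := by
        refine (Real.volume_le_diam _).trans (le_of_eq ?_)
        rw [diam, ENNReal.ofReal_toReal]
        exact (((hS.cpt P ((hJS P).1 hP)).image hv).isBounded).ediam_ne_top
      have h4 : volume (prj a '' closedBall (c P) (r P)) ≤ ENNReal.ofReal (2 * r P) := by
        refine (measure_mono (prj_closedBall ha (r P))).trans (le_of_eq ?_)
        rw [Real.volume_Icc]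
        congr 1
        ring
      refine (mul_le_mul' h3 h4).trans ?_
      rw [← ENNReal.ofReal_mul diam_nonneg]
      apply ENNReal.ofReal_le_ofReal
      have h5 : 0 ≤ (N * diam (v '' P) - r P) ^ 2 / N := by positivity
      have h6 : (N * diam (v '' P) - r P) ^ 2 / N =
          N * diam (v '' P) ^ 2 + r P ^ 2 / N - diam (v '' P) * (2 * r P) := by
        field_simp
        ring
      linarith
    refine (measure_biUnion_finset_le _ _).trans ((Finset.sum_le_sum h2).trans ?_)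
    rw [← ENNReal.ofReal_sum_of_nonneg (fun P _ => by positivity)]
    apply ENNReal.ofReal_le_ofReal
    rw [Finset.sum_add_distrib, ← Finset.mul_sum, ← Finset.sum_div]
    refine add_le_add (mul_le_mul_of_nonneg_left hJ hN.le) ?_
    exact div_le_div_of_nonneg_right (sum_sq_le hM0 hr hPM
      fun P hP Q hQ hne => h.disj P ((hJS P).1 hP) Q ((hJS Q).1 hQ) hne) hN.le
  have hfin := hmeas.trans ((measure_union_le _ _).trans (add_le_add hA1 hB))
  rw [← ENNReal.ofReal_add (by positivity) (by positivity),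
    ENNReal.ofReal_le_ofReal_iff (by positivity)] at hfin
  exact hfin

/-- modification of a continuous function on finitely many disjoint compact sets -/
lemma exists_clamp {κ V : ℂ → ℝ} (hV : Continuous V) (o : Set ℂ → ℝ) (J : Finset (Set ℂ))
    (hJc : ∀ P ∈ J, IsCompact P) (hd : ∀ P ∈ J, ∀ P' ∈ J, P ≠ P' → Disjoint P P')
    (hVκ : ∀ P ∈ J, ∀ z ∈ frontier P, V z = κ z)
    (ho : ∀ P ∈ J, ∀ x ∈ frontier P, ∀ y ∈ frontier P, |κ x - κ y| ≤ o P) :
    ∃ v : ℂ → ℝ, Continuous v ∧ (∀ z, (∀ P ∈ J, z ∉ P) → v z = V z) ∧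
      ∀ P ∈ J, P.Nonempty → ∀ x ∈ P, ∀ y ∈ P, |v x - v y| ≤ o P := by
  classical
  induction J using Finset.induction_on with
  | empty => exact ⟨V, hV, fun _ _ => rfl, fun P hP => absurd hP (Finset.notMem_empty P)⟩
  | @insert P J hPJ ih =>
    obtain ⟨v, hv, hvV, hvo⟩ := ih (fun P hP => hJc P (Finset.mem_insert_of_mem hP))
      (fun P hP P' hP' => hd P (Finset.mem_insert_of_mem hP) P' (Finset.mem_insert_of_mem hP'))
      (fun P hP => hVκ P (Finset.mem_insert_of_mem hP))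
      (fun P hP => ho P (Finset.mem_insert_of_mem hP))
    have hPc := hJc P (Finset.mem_insert_self P J)
    have hdP : ∀ P' ∈ J, ∀ z ∈ P, z ∉ P' := by
      intro P' hP' z hz hz'
      have hne : P ≠ P' := by
        rintro rfl
        exact hPJ hP'
      exact disjoint_left.1 (hd P (Finset.mem_insert_self P J) P' (Finset.mem_insert_of_mem hP')
        hne) hz hz'
    have hfr : ∀ z ∈ frontier P, v z = κ z := by
      intro z hz
      rw [hvV z fun P' hP' => hdP P' hP' z (hPc.isClosed.frontier_subset hz)]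
      exact hVκ P (Finset.mem_insert_self P J) z hz
    obtain ⟨a, ha⟩ : ∃ a : ℝ, ∀ z ∈ frontier P, a ≤ v z ∧ v z ≤ a + o P := by
      rcases (frontier P).eq_empty_or_nonempty with he | hne
      · exact ⟨0, fun z hz => by rw [he] at hz; exact absurd hz (notMem_empty z)⟩
      · have hfc : IsCompact (frontier P) := hPc.of_isClosed_subset isClosed_frontier
          hPc.isClosed.frontier_subset
        obtain ⟨x₀, hx₀, hmin⟩ := hfc.exists_isMinOn hne hv.continuousOn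
        refine ⟨v x₀, fun z hz => ⟨hmin hz, ?_⟩⟩
        have h1 := ho P (Finset.mem_insert_self P J) z hz x₀ hx₀
        rw [← hfr z hz, ← hfr x₀ hx₀] at h1
        have := (abs_le.1 h1).2
        linarith
    refine ⟨P.piecewise (fun z => max a (min (a + o P) (v z))) v, ?_, ?_, ?_⟩
    · refine Continuous.piecewise (fun z hz => ?_) (by fun_prop) hv
      obtain ⟨h1, h2⟩ := ha z hz
      rw [min_eq_right h2, max_eq_right h1]
    · intro z hz
      rw [piecewise_eq_of_notMem _ _ _ (hz P (Finset.mem_insert_self P J))]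
      exact hvV z fun P' hP' => hz P' (Finset.mem_insert_of_mem hP')
    · intro P' hP' hne x hx y hy
      rcases Finset.mem_insert.1 hP' with rfl | hP'J
      · rw [piecewise_eq_of_mem _ _ _ hx, piecewise_eq_of_mem _ _ _ hy]
        have hfne : (frontier P').Nonempty := by
          rw [nonempty_frontier_iff]
          exact ⟨hne, fun h => hPc.ne_univ h⟩
        obtain ⟨z, hz⟩ := hfne
        have h0 : 0 ≤ o P' := by
          have := ha z hz
          linarith
        have g1 : a ≤ max a (min (a + o P') (v x)) := le_max_left _ _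
        have g2 : max a (min (a + o P') (v x)) ≤ a + o P' :=
          max_le (by linarith) (min_le_left _ _)
        have g3 : a ≤ max a (min (a + o P') (v y)) := le_max_left _ _
        have g4 : max a (min (a + o P') (v y)) ≤ a + o P' :=
          max_le (by linarith) (min_le_left _ _)
        rw [abs_le]
        constructor <;> linarith
      · have hx' : x ∉ P := fun h => hdP P' hP'J x h hx
        have hy' : y ∉ P := fun h => hdP P' hP'J y h hy
        rw [piecewise_eq_of_notMem _ _ _ hx', piecewise_eq_of_notMem _ _ _ hy']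
        exact hvo P' hP'J hne x hx y hy

/-- clipping to `[0, 1]` -/
noncomputable def clip (t : ℝ) : ℝ := max 0 (min 1 t)

lemma abs_clip_sub (s t : ℝ) : |clip s - clip t| ≤ |s - t| := by
  simp only [clip, max_def, min_def]
  split_ifs <;> rcases abs_cases (s - t) with ⟨h1, _⟩ | ⟨h1, _⟩ <;> rw [h1] <;> rw [abs_le] <;>
    constructor <;> linarith

lemma continuous_clip : Continuous clip := by
  unfold clip
  fun_prop

/-- **length-area** for functions with a continuous majorant, general pieces -/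
theorem rectH {K Q : Set ℂ} {S : Set (Set ℂ)} (hS : Adm S) {f : ℂ → ℂ} {c : Set ℂ → ℂ}
    {r : Set ℂ → ℝ} (h : CMap S f c r) {u ρ : ℂ → ℝ} {o : Set ℂ → ℝ} {R M ε : ℝ} (hε : 0 ≤ ε)
    (hM0 : 0 < M) (hQc : IsCompact Q) (hQ : IsPreconnected Q)
    (hSQ : ∀ P ∈ S, P ⊆ Q ∨ Disjoint P Q) (hcov : K ⊆ Q ∪ ⋃₀ S)
    (hfQ : Disjoint (frontier Q) K) (hfP : ∀ P ∈ S, Disjoint (frontier P) K)
    (hR : Q ∪ ⋃₀ S ⊆ ball 0 R) (hu : ContinuousOn u (Kᶜ ∩ (interior Q)ᶜ))
    (hu1 : ∀ z ∈ frontier Q, 1 / 2 ≤ u z) (hu0 : ∀ z, R ≤ ‖z‖ → u z ≤ 0)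
    (hρ : ContinuousOn ρ (Kᶜ ∩ Qᶜ)) (hρ0 : ∀ z ∈ Kᶜ ∩ Qᶜ, 0 ≤ ρ z)
    (hmaj : ∀ x y, segment ℝ x y ⊆ Kᶜ ∩ Qᶜ → ∀ B, (∀ z ∈ segment ℝ x y, ρ z ≤ B) →
      |u x - u y| ≤ B * ‖x - y‖)
    (hen : ∫⁻ z in Kᶜ ∩ Qᶜ ∩ ball 0 R, ENNReal.ofReal (ρ z ^ 2) ≤ ENNReal.ofReal ε)
    (ho : ∀ P ∈ S, Disjoint P Q → ∀ x ∈ frontier P, ∀ y ∈ frontier P, |u x - u y| ≤ o P)
    (hoS : ∀ J : Finset (Set ℂ), (∀ P ∈ J, P ∈ S ∧ Disjoint P Q) → ∑ P ∈ J, o P ^ 2 ≤ ε)
    (hM : Tm S f c r (ball 0 R) ⊆ closedBall 0 M) :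
    ∀ w₁ ∈ Tm S f c r Q, ∀ w₂ ∈ Tm S f c r Q, dist w₁ w₂ ≤ 20 * M * Real.sqrt ε := by
  classical
  -- the function on the closed set
  set κ : ℂ → ℝ := fun z => clip (2 * u z) with hκ
  set J₀ : Finset (Set ℂ) := hS.fin.toFinset with hJ₀
  have hmJ₀ : ∀ P, P ∈ J₀ ↔ P ∈ S := fun P => hS.fin.mem_toFinset
  set J : Finset (Set ℂ) := J₀.filter (fun P => Disjoint P Q) with hJ
  have hmJ : ∀ P, P ∈ J ↔ P ∈ S ∧ Disjoint P Q := fun P => by
    rw [hJ, Finset.mem_filter, hmJ₀]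
  set Z : Set ℂ := (interior Q ∪ ⋃ P ∈ J, interior P)ᶜ with hZ
  have hZc : IsClosed Z :=
    (isOpen_interior.union (isOpen_biUnion fun P _ => isOpen_interior)).isClosed_compl
  have hZK : Z ⊆ Kᶜ ∩ (interior Q)ᶜ := by
    intro z hz
    refine ⟨fun hzK => ?_, fun h2 => hz (Or.inl h2)⟩
    have hnQ : z ∉ Q := fun hzQ => by
      by_cases hzi : z ∈ interior Q
      · exact hz (Or.inl hzi)
      · exact disjoint_left.1 hfQ ⟨subset_closure hzQ, hzi⟩ hzK
    rcases hcov hzK with hzQ | ⟨P, hP, hzP⟩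
    · exact hnQ hzQ
    · rcases hSQ P hP with hPQ | hPQ
      · exact hnQ (hPQ hzP)
      · by_cases hzi : z ∈ interior P
        · exact hz (Or.inr (mem_iUnion₂.2 ⟨P, (hmJ P).2 ⟨hP, hPQ⟩, hzi⟩))
        · exact disjoint_left.1 (hfP P hP) ⟨subset_closure hzP, hzi⟩ hzK
  have hκc : ContinuousOn κ Z :=
    continuous_clip.comp_continuousOn (continuousOn_const.mul (hu.mono hZK))
  obtain ⟨V₀, hV₀⟩ := ContinuousMap.exists_restrict_eq hZc ⟨Z.domRestrict κ, hκc.domRestrict⟩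
  have hV₀κ : ∀ z ∈ Z, V₀ z = κ z := fun z hz => DFunLike.congr_fun hV₀ (⟨z, hz⟩ : Z)
  -- points of the frontiers
  have hfrQ : frontier Q ⊆ Z := by
    intro z hz hcon
    rcases hcon with h1 | h1
    · exact hz.2 h1
    · obtain ⟨P, hP, hzP⟩ := mem_iUnion₂.1 h1
      exact disjoint_left.1 ((hmJ P).1 hP).2 (interior_subset hzP)
        (hQc.isClosed.frontier_subset hz)
  have hfrP : ∀ P ∈ J, frontier P ⊆ Z := by
    intro P hP z hz hcon
    have hzP : z ∈ P := (hS.cpt P ((hmJ P).1 hP).1).isClosed.frontier_subset hz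
    rcases hcon with h1 | h1
    · exact disjoint_left.1 ((hmJ P).1 hP).2 hzP (interior_subset h1)
    · obtain ⟨P', hP', hzP'⟩ := mem_iUnion₂.1 h1
      by_cases hPP : P = P'
      · subst hPP
        exact hz.2 hzP'
      · exact disjoint_left.1 (hS.disj P ((hmJ P).1 hP).1 P' ((hmJ P').1 hP').1 hPP) hzP
          (interior_subset hzP')
  set V : ℂ → ℝ := Q.piecewise (fun _ => 1) V₀ with hV
  have hVc : Continuous V := by
    refine Continuous.piecewise (fun z hz => ?_) continuous_const V₀.continuous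
    rw [hV₀κ z (hfrQ hz), hκ]
    have := hu1 z hz
    simp only [clip]
    rw [min_eq_left (by linarith), max_eq_right zero_le_one]
  have hVκ : ∀ z ∈ Z, z ∉ Q → V z = κ z := by
    intro z hz hzQ
    rw [hV, piecewise_eq_of_notMem _ _ _ hzQ]
    exact hV₀κ z hz
  obtain ⟨v, hvc, hvV, hvo⟩ := exists_clamp (κ := κ) hVc (fun P => 2 * o P) J
    (fun P hP => hS.cpt P ((hmJ P).1 hP).1)
    (fun P hP P' hP' hne => hS.disj P ((hmJ P).1 hP).1 P' ((hmJ P').1 hP').1 hne)
    (fun P hP z hz => hVκ z (hfrP P hP hz) fun hzQ => disjoint_left.1 ((hmJ P).1 hP).2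
      ((hS.cpt P ((hmJ P).1 hP).1).isClosed.frontier_subset hz) hzQ)
    (fun P hP x hx y hy => by
      refine (abs_clip_sub _ _).trans ?_
      rw [← mul_sub, abs_mul, abs_two]
      exact mul_le_mul_of_nonneg_left (ho P ((hmJ P).1 hP).1 ((hmJ P).1 hP).2 x hx y hy)
        zero_le_two)
  -- properties of `v`
  have hvQ : ∀ z ∈ Q, v z = 1 := by
    intro z hz
    rw [hvV z fun P hP hzP => disjoint_left.1 ((hmJ P).1 hP).2 hzP hz, hV,
      piecewise_eq_of_mem _ _ _ hz]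
  have hvκ : ∀ z, z ∉ Q → z ∉ ⋃₀ S → v z = κ z := by
    intro z hzQ hzS
    have h1 : ∀ P ∈ J, z ∉ P := fun P hP hzP => hzS ⟨P, ((hmJ P).1 hP).1, hzP⟩
    rw [hvV z h1]
    refine hVκ z ?_ hzQ
    rintro (h2 | h2)
    · exact hzQ (interior_subset h2)
    · obtain ⟨P, hP, hzP⟩ := mem_iUnion₂.1 h2
      exact h1 P hP (interior_subset hzP)
  have hv0 : ∀ z, R ≤ ‖z‖ → v z = 0 := by
    intro z hz
    have hzn : z ∉ Q ∪ ⋃₀ S := by
      intro h1
      have := hR h1
      rw [mem_ball, dist_zero_right] at this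
      linarith
    rw [hvκ z (fun h1 => hzn (Or.inl h1)) (fun h1 => hzn (Or.inr h1)), hκ]
    have := hu0 z hz
    simp only [clip]
    rw [max_eq_left]
    exact (min_le_right _ _).trans (by linarith)
  set A : Set ℂ := (⋃₀ S)ᶜ ∩ v ⁻¹' Ioo 0 1 with hA
  have hAQ : ∀ z ∈ A, z ∉ Q := by
    intro z hz hzQ
    have h1 := hz.2.2
    rw [hvQ z hzQ] at h1
    exact lt_irrefl _ h1
  have hAK : A ⊆ Kᶜ ∩ Qᶜ := by
    intro z hz
    refine ⟨fun hzK => ?_, hAQ z hz⟩
    rcases hcov hzK with h1 | h1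
    · exact hAQ z hz h1
    · exact hz.1 h1
  have hAR : A ⊆ ball 0 R := by
    intro z hz
    by_contra hcon
    rw [mem_ball, dist_zero_right, not_lt] at hcon
    have h2 := hz.2.1
    rw [hv0 z hcon] at h2
    exact lt_irrefl _ h2
  have hAu : ∀ z ∈ A, v z = 2 * u z := by
    intro z hz
    have h1 := hvκ z (hAQ z hz) hz.1
    have h2 := hz.2
    rw [mem_preimage, h1, hκ] at h2
    rw [h1, hκ]
    simp only [clip, mem_Ioo] at h2 ⊢
    have h3 : 2 * u z < 1 := by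
      by_contra hcon
      push Not at hcon
      rw [min_eq_left hcon] at h2
      exact absurd h2.2 (by simp)
    have h4 : 0 < 2 * u z := by
      by_contra hcon
      push Not at hcon
      rw [min_eq_right h3.le, max_eq_left hcon] at h2
      exact lt_irrefl _ h2.1
    rw [min_eq_right h3.le, max_eq_right h4.le]
  have hmajA : Maj A v (fun z => 2 * ρ z) := by
    intro x y hxy B hB
    have hx := hxy (left_mem_segment ℝ x y)
    have hy := hxy (right_mem_segment ℝ x y)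
    rw [hAu x hx, hAu y hy, ← mul_sub, abs_mul, abs_two]
    have h1 := hmaj x y (hxy.trans hAK) (B / 2) fun z hz => by
      have := hB z hz
      linarith
    linarith
  have henA : ∫⁻ z in A, ENNReal.ofReal ((2 * ρ z) ^ 2) ≤ ENNReal.ofReal (4 * ε) := by
    have h1 : ∀ z, ENNReal.ofReal ((2 * ρ z) ^ 2) = ENNReal.ofReal 4 * ENNReal.ofReal (ρ z ^ 2) := by
      intro z
      rw [← ENNReal.ofReal_mul (by norm_num)]
      congr 1
      ring
    simp only [h1]
    rw [lintegral_const_mul' _ _ ENNReal.ofReal_ne_top, ENNReal.ofReal_mul (by norm_num)]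
    gcongr
    exact (lintegral_mono_set (subset_inter hAK hAR)).trans hen
  have hPM : ∀ P ∈ J₀, closedBall (c P) (r P) ⊆ closedBall 0 M := by
    intro P hP
    have hP' := (hmJ₀ P).1 hP
    obtain ⟨z, hz⟩ := (hS.conn P hP').nonempty
    refine subset_trans ?_ hM
    intro w hw
    exact Or.inr (mem_iUnion₂.2 ⟨P, ⟨hP', z, hR (Or.inr ⟨P, hP', hz⟩), hz⟩, hw⟩)
  have hsum : ∑ P ∈ J₀, diam (v '' P) ^ 2 ≤ 4 * ε := by
    have h1 : ∀ P ∈ J₀, diam (v '' P) ^ 2 ≤ if P ∈ J then 4 * o P ^ 2 else 0 := by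
      intro P hP
      have hP' := (hmJ₀ P).1 hP
      split_ifs with hPJ
      · obtain ⟨z, hz⟩ := (hS.conn P hP').nonempty
        have h2 := hvo P hPJ ⟨z, hz⟩
        have h3 : 0 ≤ 2 * o P := (abs_nonneg _).trans (h2 z hz z hz)
        have h4 : diam (v '' P) ≤ 2 * o P := by
          refine diam_le_of_forall_dist_le h3 ?_
          rintro _ ⟨x, hx, rfl⟩ _ ⟨y, hy, rfl⟩
          rw [Real.dist_eq]
          exact h2 x hx y hy
        calc diam (v '' P) ^ 2 ≤ (2 * o P) ^ 2 := pow_le_pow_left₀ diam_nonneg h4 2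
          _ = 4 * o P ^ 2 := by ring
      · have hPQ : P ⊆ Q := by
          rcases hSQ P hP' with h2 | h2
          · exact h2
          · exact absurd ((hmJ P).2 ⟨hP', h2⟩) hPJ
        have h2 : diam (v '' P) = 0 := by
          apply le_antisymm _ diam_nonneg
          refine diam_le_of_forall_dist_le le_rfl ?_
          rintro _ ⟨x, hx, rfl⟩ _ ⟨y, hy, rfl⟩
          rw [hvQ x (hPQ hx), hvQ y (hPQ hy), dist_self]
        rw [h2]
        norm_num
    refine (Finset.sum_le_sum h1).trans ?_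
    rw [← Finset.sum_filter]
    have h2 : J₀.filter (fun P => P ∈ J) = J := by
      ext P
      rw [Finset.mem_filter, hmJ₀, hmJ]
      tauto
    rw [h2, ← Finset.mul_sum]
    have := hoS J fun P hP => (hmJ P).1 hP
    linarith
  have hρA : ContinuousOn (fun z => 2 * ρ z) A := continuousOn_const.mul (hρ.mono hAK)
  have main : ∀ w₁ ∈ Tm S f c r Q, ∀ w₂ ∈ Tm S f c r Q, ∀ N > 0,
      dist w₁ w₂ ≤ 12 * N * ε + 8 * M ^ 2 / N := by
    intro w₁ hw₁ w₂ hw₂ N hN
    by_cases hne : w₂ = w₁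
    · rw [hne, dist_self]
      positivity
    obtain ⟨a, ha, hda⟩ := exists_dir hne
    have h1 := rect0 hS h hvc hQ hvQ hv0 hρA (fun z hz => by
      have := hρ0 z (hAK hz)
      positivity) hmajA hM hM0.le hN (by positivity : (0:ℝ) ≤ 4 * ε) henA hmJ₀ hPM hsum ha hw₁ hw₂
    rw [hda, ← dist_eq_norm, dist_comm] at h1
    refine h1.trans ?_
    have h2 : 2 * π * M ^ 2 / N ≤ 7 * M ^ 2 / N := by
      have h3 : 2 * π ≤ 7 := by
        have := Real.pi_lt_d2
        linarith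
      gcongr
    have h3 : 8 * M ^ 2 / N = 7 * M ^ 2 / N + M ^ 2 / N := by ring
    linarith
  intro w₁ hw₁ w₂ hw₂
  rcases hε.eq_or_lt with he | hpos
  · rw [← he, Real.sqrt_zero, mul_zero]
    have h1 : Tendsto (fun N : ℝ => 12 * N * ε + 8 * M ^ 2 / N) atTop (𝓝 0) := by
      rw [← he]
      simpa using tendsto_const_nhds.div_atTop (α := ℝ) (f := fun _ : ℝ => 8 * M ^ 2) tendsto_id
    refine ge_of_tendsto h1 ?_
    filter_upwards [eventually_gt_atTop 0] with N hN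
    exact main w₁ hw₁ w₂ hw₂ N hN
  · have hs : 0 < Real.sqrt ε := Real.sqrt_pos.2 hpos
    refine (main w₁ hw₁ w₂ hw₂ (4 * M / (5 * Real.sqrt ε)) (by positivity)).trans ?_
    have hsq : Real.sqrt ε * Real.sqrt ε = ε := Real.mul_self_sqrt hε
    have e1 : 12 * (4 * M / (5 * Real.sqrt ε)) * ε = 48 / 5 * M * Real.sqrt ε := by
      field_simp
      nlinarith
    have e2 : 8 * M ^ 2 / (4 * M / (5 * Real.sqrt ε)) = 10 * M * Real.sqrt ε := by
      field_simp
      ring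
    rw [e1, e2]
    nlinarith [mul_pos hM0 hs]

end Vale.Agent.P116.KF
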